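import Crest.Agent.N250.Po.Area
import Crest.Agent.N250.Gc.Area

/-!
# Row 250, real side (helper50), EN: the Gaussian area of the glued surface is at most the core
action plus the end actions
-/

set_option autoImplicit false
open MeasureTheory Set Filter Topology Function
open scoped ContDiff InnerProductSpace ENNReal
open Crest.GeometryTopology.MCF

noncomputable section

namespace Crest.Agent.N250.Rl

open Po

section Split

variable {S G : Mv} {X : ST → E} {ι : Type} [Fintype ι] {t : ℝ} {B : Set E} {ze g : E → ℝ}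
  {ka : ι → ℝ → ℝ} {Q : ι → E ≃ₗᵢ[ℝ] E} {r v : ι → ℝ × ℝ → ℝ} {I : ι → Set ℝ}

theorem cont_crd1 (Q : E ≃ₗᵢ[ℝ] E) : Continuous fun y => (crd Q y).1 := by
  unfold crd; fun_prop

theorem en_lint (h : S.Par G X) (hB : MeasurableSet B) (hI : ∀ j, MeasurableSet (I j))
    (hka : ∀ j, Measurable (ka j)) (hg : Measurable g)
    (hP : ∀ j, ∀ q ∈ strip (I j), Pol G t (Q j) (r j) (v j) q) (z0 : ∀ x ∈ S.sl t, 0 ≤ ze x)
    (k0 : ∀ j, ∀ s ∈ I j, 0 ≤ ka j s) (g0 : ∀ y, 0 ≤ g y)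
    (cov : ∀ x ∈ S.sl t, X (x, t) ∈ B → 1 ≤ ze x ∨ ∃ j, ∃ q ∈ strip (I j),
      X (x, t) = pX (Q j) (r j) q ∧ 1 ≤ ze x + ka j q.1) :
    ∫⁻ y in B, ENNReal.ofReal (g y) ∂G.mu t ≤
      ∫⁻ x, ENNReal.ofReal (ze x * (S.sX X (x, t) * g (X (x, t)))) ∂S.mu t +
      ∑ j, ∫⁻ q in strip (I j),
        ENNReal.ofReal (ka j q.1 * (√(Qv (v j) q) * g (pX (Q j) (r j) q))) := by
  let F : ι → E → ℝ≥0∞ := fun j => (pX (Q j) (r j) '' strip (I j)).indicator
    fun y => ENNReal.ofReal (ka j (crd (Q j) y).1 * g y)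
  have mF : ∀ j, Measurable (F j) := fun j =>
    ((((hka j).comp (cont_crd1 _).measurable).mul hg).ennreal_ofReal).indicator
      (meas_pol (hI j) (hP j))
  have e1 : ∀ j, ∫⁻ y, F j y ∂G.mu t = ∫⁻ q in strip (I j),
      ENNReal.ofReal (ka j q.1 * (√(Qv (v j) q) * g (pX (Q j) (r j) q))) := fun j => by
    rw [lintegral_indicator (meas_pol (hI j) (hP j)), lint_pol (hI j) (hP j)]
    refine setLIntegral_congr_fun ((hI j).prod measurableSet_Ioc) fun q hq => ?_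
    simp only [crd_pX hq (hP j q hq).pos]
    rw [← ENNReal.ofReal_mul (Real.sqrt_nonneg _), mul_left_comm]
  have e2 : ∫⁻ y, ENNReal.ofReal (ze (S.inv X (y, t)).1 * g y) ∂G.mu t =
      ∫⁻ x, ENNReal.ofReal (ze x * (S.sX X (x, t) * g (X (x, t)))) ∂S.mu t := by
    rw [h.lint]
    refine lintegral_congr_ae ((ae_restrict_mem (FV.meas_sl h.reg t)).mono fun x hx => ?_)
    have : S.inv X (X (x, t), t) = (x, t) := h.toEmb.inv_hat (p := (x, t)) hx
    simp only [this]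
    rw [← ENNReal.ofReal_mul (Mv.sX_nonneg _), mul_left_comm]
  simp only [← e1]
  rw [← e2, ← lintegral_finsetSum _ fun j _ => mF j,
    ← lintegral_add_right _ (Finset.measurable_sum _ fun j _ => mF j), ← lintegral_indicator hB]
  refine lintegral_mono_ae ((ae_restrict_mem (FV.meas_sl h.reg' t)).mono fun y hy => ?_)
  by_cases hyB : y ∈ B
  swap
  · simp [hyB]
  rw [h.sl_eq] at hy
  obtain ⟨x, hx, rfl⟩ := hy
  have : S.inv X (X (x, t), t) = (x, t) := h.toEmb.inv_hat (p := (x, t)) hx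
  simp only [this, indicator_of_mem hyB]
  rcases cov x hx hyB with c | ⟨j, q, hq, c1, c2⟩
  · exact le_self_add.trans' (ENNReal.ofReal_le_ofReal (le_mul_of_one_le_left (g0 _) c))
  · refine le_trans ?_ (add_le_add_right
      (Finset.single_le_sum (f := fun j => F j (X (x, t))) (fun _ _ => zero_le)
        (Finset.mem_univ j)) _)
    have m : X (x, t) ∈ pX (Q j) (r j) '' strip (I j) := ⟨q, hq, c1.symm⟩
    have e : (crd (Q j) (X (x, t))).1 = q.1 := by rw [c1, crd_pX hq (hP j q hq).pos]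
    simp only [F, indicator_of_mem m, e]
    rw [← ENNReal.ofReal_add (mul_nonneg (z0 x hx) (g0 _)) (mul_nonneg (k0 j _ hq.1) (g0 _)),
      ← add_mul]
    exact ENNReal.ofReal_le_ofReal (le_mul_of_one_le_left (g0 _) c2)

/-- EN with Bochner integrals on the right -/
theorem en_le (h : S.Par G X) (hB : MeasurableSet B) (hI : ∀ j, MeasurableSet (I j))
    (hka : ∀ j, Measurable (ka j)) (hg : Measurable g)
    (hP : ∀ j, ∀ q ∈ strip (I j), Pol G t (Q j) (r j) (v j) q) (z0 : ∀ x ∈ S.sl t, 0 ≤ ze x)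
    (k0 : ∀ j, ∀ s ∈ I j, 0 ≤ ka j s) (g0 : ∀ y, 0 ≤ g y)
    (cov : ∀ x ∈ S.sl t, X (x, t) ∈ B → 1 ≤ ze x ∨ ∃ j, ∃ q ∈ strip (I j),
      X (x, t) = pX (Q j) (r j) q ∧ 1 ≤ ze x + ka j q.1)
    (i1 : Integrable (fun x => ze x * (S.sX X (x, t) * g (X (x, t)))) (S.mu t))
    (i2 : ∀ j, IntegrableOn (fun q => ka j q.1 * (√(Qv (v j) q) * g (pX (Q j) (r j) q)))
      (strip (I j))) :
    ∫⁻ y in B, ENNReal.ofReal (g y) ∂G.mu t ≤ ENNReal.ofReal
      (∫ x, ze x * (S.sX X (x, t) * g (X (x, t))) ∂S.mu t +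
      ∑ j, ∫ q in strip (I j), ka j q.1 * (√(Qv (v j) q) * g (pX (Q j) (r j) q))) := by
  have p1 : 0 ≤ᵐ[S.mu t] fun x => ze x * (S.sX X (x, t) * g (X (x, t))) :=
    (ae_restrict_mem (FV.meas_sl h.reg t)).mono fun x hx =>
      mul_nonneg (z0 x hx) (mul_nonneg (Mv.sX_nonneg _) (g0 _))
  have p2 : ∀ j, 0 ≤ᵐ[volume.restrict (strip (I j))]
      fun q => ka j q.1 * (√(Qv (v j) q) * g (pX (Q j) (r j) q)) := fun j =>
    (ae_restrict_mem ((hI j).prod measurableSet_Ioc)).mono fun q hq =>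
      mul_nonneg (k0 j _ hq.1) (mul_nonneg (Real.sqrt_nonneg _) (g0 _))
  rw [ENNReal.ofReal_add (integral_nonneg_of_ae p1)
      (Finset.sum_nonneg fun j _ => integral_nonneg_of_ae (p2 j)),
    ENNReal.ofReal_sum_of_nonneg fun j _ => integral_nonneg_of_ae (p2 j),
    ofReal_integral_eq_lintegral_ofReal i1 p1]
  simp only [fun j => ofReal_integral_eq_lintegral_ofReal (i2 j) (p2 j)]
  exact en_lint h hB hI hka hg hP z0 k0 g0 cov

end Split

end Crest.Agent.N250.Rl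

end
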