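import Crest.Agent.N250.Rl.Img1
import Crest.Agent.N250.Master

/-!
# Row 250 (helper14): small perturbations of a shrinker with `Ends`, tilted on the tubes
-/

set_option autoImplicit false
open MeasureTheory Set Filter Topology
open scoped ContDiff InnerProductSpace
open Crest.GeometryTopology.MCF

noncomputable section

namespace Crest.Agent.N250.Rl

open Gc Mv

/-- distance to the first axis -/
def rad (x : E) : ℝ := √(x 1 ^ 2 + x 2 ^ 2)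

theorem rad_nonneg (x : E) : 0 ≤ rad x := Real.sqrt_nonneg _

theorem norm_sq_eq (x : E) : ‖x‖ ^ 2 = x 0 ^ 2 + rad x ^ 2 := by
  rw [rad, Real.sq_sqrt (by positivity), EuclideanSpace.real_norm_sq_eq, Fin.sum_univ_three]
  ring

theorem rad_le (x : E) : rad x ≤ ‖x‖ :=
  abs_le_of_sq_le_sq' (by rw [norm_sq_eq]; nlinarith [sq_nonneg (x 0)]) (norm_nonneg _) |>.2

theorem rad_add (x y : E) : rad (x + y) ≤ rad x + rad y := by
  have hx : rad x ^ 2 = x 1 ^ 2 + x 2 ^ 2 := Real.sq_sqrt (by positivity)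
  have hy : rad y ^ 2 = y 1 ^ 2 + y 2 ^ 2 := Real.sq_sqrt (by positivity)
  have h : x 1 * y 1 + x 2 * y 2 ≤ rad x * rad y :=
    abs_le_of_sq_le_sq' (by rw [mul_pow, hx, hy]; nlinarith [sq_nonneg (x 1 * y 2 - x 2 * y 1)])
      (mul_nonneg (rad_nonneg x) (rad_nonneg y)) |>.2
  refine Real.sqrt_le_iff.2 ⟨add_nonneg (rad_nonneg x) (rad_nonneg y), ?_⟩
  simp only [PiLp.add_apply]
  nlinarith

theorem rad_cylP (s θ : ℝ) {r : ℝ} (hr : 0 ≤ r) : rad (cylP s r θ) = r := by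
  have : (r * Real.cos θ) ^ 2 + (r * Real.sin θ) ^ 2 = r ^ 2 := by
    nlinarith [Real.cos_sq_add_sin_sq θ]
  simp only [rad, cylP, Matrix.cons_val_one, Matrix.cons_val_zero, Matrix.cons_val_two,
    Matrix.tail_cons, Matrix.head_cons, this, Real.sqrt_sq hr]

variable {S : Mv} (e : Ends S)

/-- far points of the shrinker in a cone lie in the tube -/
theorem tube_of_cone {j : Fin e.p} {x : E} (hx : x ∈ S.sl 0) (hc : (e.Q j).symm x ∈ cone0 e.ε)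
    (hR : 2 * e.R < ‖x‖) : e.R < (e.Q j).symm x 0 ∧ 1 < rad ((e.Q j).symm x) ∧
      rad ((e.Q j).symm x) < 2 := by
  set y := (e.Q j).symm x with hy
  have h0 : ‖y‖ = ‖x‖ := (e.Q j).symm.norm_map x
  have h1 : rad y ≤ e.ε * y 0 := hc
  have hε := e.ε_pos
  have hε1 := e.ε_le
  have hR0 : 0 < e.R := pos_of_mul_pos_left (b := e.ε) (by linarith [e.R_ge, mul_comm e.ε e.R]) hε.le
  have h2 : 0 ≤ y 0 := nonneg_of_mul_nonneg_right ((rad_nonneg y).trans h1) hε |> fun h => by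
    by_contra h3
    nlinarith [rad_nonneg y, not_le.1 h3]
  have h3 : rad y ≤ y 0 := h1.trans (mul_le_of_le_one_left h2 hε1)
  have h4 : e.R < y 0 := by
    by_contra h5
    have h6 := norm_sq_eq y
    have := rad_nonneg y
    nlinarith [not_lt.1 h5]
  obtain ⟨θ, hθ⟩ := (e.tube j y hc h4).1 (by rwa [hy, (e.Q j).apply_symm_apply])
  have h5 := e.near j (y 0, θ) h4
  have h6 : rad y = e.r j (y 0, θ) := by
    conv_lhs => rw [hθ]
    exact rad_cylP _ _ (by linarith [h5.1])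
  rw [h6]
  exact ⟨h4, h5⟩

/-- a conical neighbourhood of a far tube point is in the cone -/
theorem cone_near {j : Fin e.p} {x z : E} (hx : x ∈ S.sl 0) (hc : (e.Q j).symm x ∈ cone0 e.ε)
    (hR : 3 * e.R < ‖x‖) (hz : ‖z - x‖ ≤ e.ε / 4 * ‖x‖) : (e.Q j).symm z ∈ cone0 e.ε := by
  have hε := e.ε_pos
  have hε1 := e.ε_le
  have hR3 := e.R_ge
  have hR0 : 0 < e.R := pos_of_mul_pos_left (b := e.ε) (by linarith [mul_comm e.ε e.R]) hε.le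
  obtain ⟨h1, -, h2⟩ := tube_of_cone e hx hc (by linarith)
  set y := (e.Q j).symm x with hy
  set w := (e.Q j).symm (z - x) with hw
  have h0 : ‖y‖ = ‖x‖ := (e.Q j).symm.norm_map x
  have h3 : ‖w‖ = ‖z - x‖ := (e.Q j).symm.norm_map _
  have h4 : (e.Q j).symm z = y + w := by rw [hy, hw, ← map_add, add_sub_cancel]
  rw [h4]
  change rad (y + w) ≤ e.ε * (y 0 + w 0)
  have h5 := rad_add y w
  have h6 := rad_le w
  have h7 := (abs_le.1 (Im.abs_coord_le w 0)).1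
  have h8 : ‖x‖ ≤ y 0 + 2 := by
    rw [← h0]
    refine abs_le_of_sq_le_sq' ?_ (by linarith) |>.2
    rw [norm_sq_eq]
    nlinarith [rad_nonneg y]
  have h9 : 9 ≤ e.ε * ‖x‖ := by nlinarith
  have h10 : e.ε * (‖x‖ - 2 - e.ε / 4 * ‖x‖) ≤ e.ε * (y 0 + w 0) := by
    refine mul_le_mul_of_nonneg_left ?_ hε.le
    linarith
  have h11 : e.ε * (e.ε * ‖x‖) ≤ 1 * (e.ε * ‖x‖) := by gcongr
  nlinarith

/-- the hypotheses on the displacement `Y` -/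
structure Sml (R₀ ε₀ C₀ : ℝ) (Y : E → E) : Prop where
  sm : S.Sm fun p => Y p.1
  y0 : ∀ x ∈ S.sl 0, ‖Y x‖ ≤ ε₀ * (1 + ‖x‖)
  y1 : ∀ x ∈ S.sl 0, ∀ a c, |S.D a (Yc Y c) (x, 0)| ≤ ε₀
  y2 : ∀ x ∈ S.sl 0, ∀ a b c, |S.D a (S.D b (Yc Y c)) (x, 0)| ≤ C₀
  tilt : ∀ j, ∃ T : E →L[ℝ] E, ‖T‖ ≤ ε₀ ∧ ∀ x ∈ S.sl 0, (e.Q j).symm x ∈ cone0 e.ε → R₀ < ‖x‖ →
    ‖Y x - T x‖ ≤ ε₀

/-- `Y` is a contraction -/
theorem lip (hS : S.IsShr) (R₀ : ℝ) : ∃ ε₀, 0 < ε₀ ∧ ε₀ ≤ 1 / 100 ∧ ∀ (C₀ : ℝ) (Y : E → E),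
    Sml e R₀ ε₀ C₀ Y → ∀ x ∈ S.sl 0, ∀ y ∈ S.sl 0, ‖Y x - Y y‖ ≤ 1 / 2 * ‖x - y‖ := by
  obtain ⟨ρ, hρ, hR⟩ := e.reach₀
  obtain ⟨c, hc, hC⟩ := e.reach
  have hε := e.ε_pos
  have hε1 := e.ε_le
  have hR0 : 0 < e.R := pos_of_mul_pos_left (b := e.ε) (by linarith [e.R_ge, mul_comm e.ε e.R]) hε.le
  obtain ⟨δ, hδ, d1, d2⟩ : ∃ δ, 0 < δ ∧ δ ≤ e.ε / 8 ∧ δ ≤ c / 2 :=
    ⟨min (e.ε / 8) (c / 2), by positivity, min_le_left _ _, min_le_right _ _⟩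
  obtain ⟨R₁, r0, r1, r2⟩ : ∃ R₁, 0 < R₁ ∧ 2 * R₀ ≤ R₁ ∧ 6 * e.R ≤ R₁ :=
    ⟨max (2 * R₀) (6 * e.R), lt_max_of_lt_right (by positivity), le_max_left _ _, le_max_right _ _⟩
  obtain ⟨K, hK⟩ : ∃ K, K = 100 + (2 + 2 * R₁) / ρ + 2 / δ := ⟨_, rfl⟩
  have k1 : 0 < (2 + 2 * R₁) / ρ := by positivity
  have k2 : 0 < 2 / δ := by positivity
  have k0 : 0 < K := by linarith
  refine ⟨1 / (2 * K), by positivity, one_div_le_one_div_of_le (by norm_num) (by linarith),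
    fun C₀ Y h x hx y hy => ?_⟩
  set ε₀ := 1 / (2 * K) with hε₀
  have e0 : 0 < ε₀ := by positivity
  suffices H : ‖Y x - Y y‖ ≤ ε₀ * (K * ‖x - y‖) by
    refine H.trans (le_of_eq ?_)
    rw [hε₀]
    field_simp
  have hn := norm_nonneg (x - y)
  have loc : ∀ σ, 0 < σ → ‖x - y‖ ≤ σ →
      (∀ z ∈ S.sl 0, ‖z - y‖ ≤ ‖x - y‖ → S.Reach (z, 0) σ) → ‖Y x - Y y‖ ≤ ε₀ * (K * ‖x - y‖) := by
    intro σ h0 h1 h2
    have := Im.mv hS.reg (f := fun p => Y p.1) (L := 4 * ε₀) hy h0 h1 (cpt hS.closed y _)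
      (fun z hz => h.sm.diffW hz.1) (fun z hz => h2 z hz.1 (mem_closedBall_iff_norm.1 hz.2))
      (fun z hz v hv => Im.td_vec_le hS.reg h.sm hz.1 (h.y1 z hz.1) hv) (by positivity)
      ⟨hx, mem_closedBall_iff_norm.2 le_rfl⟩
    refine this.trans ?_
    have : 8 * ‖x - y‖ ≤ K * ‖x - y‖ := by gcongr; linarith
    nlinarith
  by_cases h1 : ‖x - y‖ ≤ ρ
  · exact loc ρ hρ h1 fun z hz _ => hR z hz
  have h1 := (not_le.1 h1).le
  have q1 : 2 + 2 * R₁ ≤ (2 + 2 * R₁) / ρ * ‖x - y‖ := by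
    rw [div_mul_eq_mul_div, le_div_iff₀ hρ]; gcongr
  have crude : ‖Y x - Y y‖ ≤ ε₀ * (2 + 2 * ‖y‖ + ‖x - y‖) := by
    have a := norm_sub_le (Y x) (Y y)
    have b := h.y0 x hx
    have b' := h.y0 y hy
    have b'' : ‖x‖ ≤ ‖y‖ + ‖x - y‖ := by simpa using norm_add_le y (x - y)
    nlinarith
  have kk : K * ‖x - y‖ = 100 * ‖x - y‖ + (2 + 2 * R₁) / ρ * ‖x - y‖ + 2 / δ * ‖x - y‖ := by
    rw [hK]; ring
  have k3 := mul_nonneg k2.le hn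
  by_cases h2 : ‖y‖ ≤ R₁
  · exact crude.trans (mul_le_mul_of_nonneg_left (by linarith) e0.le)
  have h2 := not_le.1 h2
  by_cases h3 : δ * ‖y‖ ≤ ‖x - y‖
  · have : 2 * ‖y‖ ≤ 2 / δ * ‖x - y‖ := by
      rw [div_mul_eq_mul_div, le_div_iff₀ hδ]; linarith
    exact crude.trans (mul_le_mul_of_nonneg_left (by linarith) e0.le)
  have h3 := (not_le.1 h3).le
  have big : ∀ z, ‖z - y‖ ≤ ‖x - y‖ → ‖y‖ ≤ 2 * ‖z‖ := fun z hz => by
    have a : ‖y‖ ≤ ‖z‖ + ‖z - y‖ := by simpa using norm_sub_le z (z - y)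
    have b : δ * ‖y‖ ≤ 1 / 2 * ‖y‖ := by gcongr; linarith
    linarith
  by_cases h4 : ∃ j, (e.Q j).symm y ∈ cone0 e.ε
  · obtain ⟨j, hj⟩ := h4
    obtain ⟨T, t1, t2⟩ := h.tilt j
    have hxj := cone_near e hy hj (z := x) (by linarith) (h3.trans (by gcongr; linarith))
    have a := t2 x hx hxj (by linarith [big x le_rfl])
    have b := t2 y hy hj (by linarith)
    have e1 : Y x - Y y = T (x - y) + ((Y x - T x) - (Y y - T y)) := by rw [map_sub]; abel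
    have a1 := norm_add_le (T (x - y)) ((Y x - T x) - (Y y - T y))
    have a2 := norm_sub_le (Y x - T x) (Y y - T y)
    have a3 : ‖T (x - y)‖ ≤ ε₀ * ‖x - y‖ := (T.le_opNorm _).trans (by gcongr)
    have a4 : ε₀ * (‖x - y‖ + 2) ≤ ε₀ * (K * ‖x - y‖) :=
      mul_le_mul_of_nonneg_left (by linarith) e0.le
    rw [e1]
    linarith
  · refine loc (δ * ‖y‖) (mul_pos hδ (by linarith)) h3 fun z hz hzy => ?_
    have b := big z hzy
    refine Rch.reach_mono (hS.reg.norm_n hz) (hC z hz (by linarith) fun j hj => h4 ⟨j, ?_⟩) ?_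
    · refine cone_near e hz hj (by linarith) ?_
      rw [norm_sub_rev]
      have : δ * ‖y‖ ≤ e.ε / 8 * (2 * ‖z‖) := by gcongr
      linarith
    · have : δ * ‖y‖ ≤ c / 2 * (2 * ‖z‖) := by gcongr
      linarith

/-- **REAL-1**: the image of the shrinker under a small displacement -/
theorem img (hS : S.IsShr) (R₀ : ℝ) : ∃ ε₀, 0 < ε₀ ∧ ∀ C₀ : ℝ, ∃ ρ₀, 0 < ρ₀ ∧
    (∀ x ∈ S.sl 0, S.Reach (x, 0) ρ₀) ∧
    ∀ Y : E → E, Sml e R₀ ε₀ C₀ Y → Out S Y (S.img (XY Y)) ρ₀ := by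
  obtain ⟨ε₀, e0, e1, hl⟩ := lip e hS R₀
  obtain ⟨ρ, hρ, hR⟩ := e.reach₀
  obtain ⟨C₁, hC⟩ := e.jets₀ 1
  refine ⟨ε₀, e0, fun C₀ => ?_⟩
  have k : 0 < 256 * (2 * |C₁| + |C₀|) + 1 := by positivity
  refine ⟨min (ρ / 4) (1 / (256 * (2 * |C₁| + |C₀|) + 1)), by positivity, fun x hx =>
    Rch.reach_mono (hS.reg.norm_n hx) (hR x hx) ((min_le_left _ _).trans (by linarith)),
    fun Y h => out_of_lip hS.reg hS.st hS.closed hρ hR (C₁ := |C₁|) (C₀ := |C₀|)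
      (fun x hx a b => (hC x hx b [a] rfl).trans (le_abs_self _)) h.sm
      (fun x hx a c => (h.y1 x hx a c).trans e1)
      (fun x hx a b c => (h.y2 x hx a b c).trans (le_abs_self _)) (hl C₀ Y h) (by positivity)
      (min_le_left _ _) ?_⟩
  refine (mul_le_mul_of_nonneg_left (min_le_right _ _) (by positivity)).trans ?_
  rw [mul_one_div, div_le_one k]
  linarith

end Crest.Agent.N250.Rl

end
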