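import Crest.Agent.N250.Rl.Tube

/-!
# Row 250 (helper14): cutting off an end function
-/

set_option autoImplicit false
open MeasureTheory Set Filter Topology
open scoped ContDiff InnerProductSpace
open Crest.GeometryTopology.MCF

noncomputable section

namespace Crest.Agent.N250.Rl

open Po Wr Fm

variable {κ : ℝ → ℝ} {g f : ℝ × ℝ → ℝ} {q : ℝ × ℝ} {ε K : ℝ}

theorem fd_cut {k : ℝ} (hκ : HasDerivAt κ k q.1) (hg : DifferentiableAt ℝ g q) (w : ℝ × ℝ) :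
    fderiv ℝ (fun y => κ y.1 * g y) q w = k * w.1 * g q + κ q.1 * fderiv ℝ g q w := by
  have h1 : HasFDerivAt (fun y : ℝ × ℝ => κ y.1) _ q := 
    hκ.comp_hasFDerivAt (f := Prod.fst) q (hasFDerivAt_fst (𝕜 := ℝ))
  rw [(h1.fun_mul hg.hasFDerivAt).fderiv]
  simp only [ContinuousLinearMap.add_apply, ContinuousLinearMap.smul_apply, smul_eq_mul,
    ContinuousLinearMap.coe_fst']
  ring

theorem d1_cut (hκ : Differentiable ℝ κ) (hg : DifferentiableAt ℝ g q) :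
    d1 (fun y => κ y.1 * g y) q = deriv κ q.1 * g q + κ q.1 * d1 g q := by
  rw [d1, fd_cut (hκ _).hasDerivAt hg, mul_one, d1]

theorem d2_cut (hκ : Differentiable ℝ κ) (hg : DifferentiableAt ℝ g q) :
    d2 (fun y => κ y.1 * g y) q = κ q.1 * d2 g q := by
  rw [d2, fd_cut (hκ _).hasDerivAt hg, mul_zero, zero_mul, zero_add, d2]

theorem d1_congr (e : f =ᶠ[𝓝 q] g) : d1 f =ᶠ[𝓝 q] d1 g :=
  e.fderiv.mono fun _ h => congrArg (fun T : ℝ × ℝ →L[ℝ] ℝ => T (1, 0)) h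

theorem d2_congr (e : f =ᶠ[𝓝 q] g) : d2 f =ᶠ[𝓝 q] d2 g :=
  e.fderiv.mono fun _ h => congrArg (fun T : ℝ × ℝ →L[ℝ] ℝ => T (0, 1)) h

theorem j2le_congr (e : f =ᶠ[𝓝 q] g) (h : J2le g ε q) : J2le f ε q :=
  ⟨e.eq_of_nhds ▸ h.h0, (d1_congr e).eq_of_nhds ▸ h.h1, (d2_congr e).eq_of_nhds ▸ h.h2,
    (d1_congr (d1_congr e)).eq_of_nhds ▸ h.h11, (d1_congr (d2_congr e)).eq_of_nhds ▸ h.h12,
    (d2_congr (d2_congr e)).eq_of_nhds ▸ h.h22⟩

theorem j2le_mono {ε' : ℝ} (h : J2le g ε q) (hε : ε ≤ ε') : J2le g ε' q :=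
  ⟨h.h0.trans hε, h.h1.trans hε, h.h2.trans hε, h.h11.trans hε, h.h12.trans hε, h.h22.trans hε⟩

theorem j2le_zero (hε : 0 ≤ ε) : J2le (fun _ => 0) ε q := by
  have e1 : d1 (fun _ : ℝ × ℝ => (0 : ℝ)) = fun _ => 0 := funext fun _ => by simp [d1]
  have e2 : d2 (fun _ : ℝ × ℝ => (0 : ℝ)) = fun _ => 0 := funext fun _ => by simp [d2]
  refine ⟨?_, ?_, ?_, ?_, ?_, ?_⟩ <;> simp only [e1, e2, abs_zero, hε]

theorem j2le_mul (hκ : ContDiff ℝ ∞ κ) (k0 : |κ q.1| ≤ K) (k1 : |deriv κ q.1| ≤ K)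
    (k2 : |deriv (deriv κ) q.1| ≤ K) (hg : ContDiffAt ℝ 2 g q) (h : J2le g ε q) :
    J2le (fun y => κ y.1 * g y) (4 * (K * ε)) q := by
  have hκ' : ContDiff ℝ ∞ (deriv κ) := (contDiff_infty_iff_deriv.1 hκ).2
  have c0 : Differentiable ℝ κ := hκ.differentiable (by simp)
  have c1 : Differentiable ℝ (deriv κ) := hκ'.differentiable (by simp)
  have g0 := (ev_diff hg).self_of_nhds
  have g1 : DifferentiableAt ℝ (d1 g) q := diff_fd hg _
  have g2 : DifferentiableAt ℝ (d2 g) q := diff_fd hg _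
  have e1 : d1 (fun y => κ y.1 * g y) =ᶠ[𝓝 q] fun y => deriv κ y.1 * g y + κ y.1 * d1 g y :=
    (ev_diff hg).mono fun _ hy => d1_cut c0 hy
  have e2 : d2 (fun y => κ y.1 * g y) =ᶠ[𝓝 q] fun y => κ y.1 * d2 g y :=
    (ev_diff hg).mono fun _ hy => d2_cut c0 hy
  have h0 : 0 ≤ K * ε := (abs_nonneg _).trans (abs_mul_le k0 h.h0)
  have dm : ∀ {κ : ℝ → ℝ} {g : ℝ × ℝ → ℝ}, Differentiable ℝ κ → DifferentiableAt ℝ g q →
      DifferentiableAt ℝ (fun y : ℝ × ℝ => κ y.1 * g y) q := fun a b =>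
    ((a _).comp q differentiableAt_fst).mul b
  refine ⟨(abs_mul_le k0 h.h0).trans (by linarith), ?_, ?_, ?_, ?_, ?_⟩
  · rw [e1.eq_of_nhds]
    exact (abs_add_le _ _).trans (by linarith [abs_mul_le k1 h.h0, abs_mul_le k0 h.h1])
  · rw [e2.eq_of_nhds]
    exact (abs_mul_le k0 h.h2).trans (by linarith)
  · rw [(d1_congr e1).eq_of_nhds, d1, fderiv_fun_add (dm c1 g0) (dm c0 g1),
      ContinuousLinearMap.add_apply, ← d1, ← d1, d1_cut c1 g0, d1_cut c0 g1]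
    refine (abs_add_le _ _).trans ((add_le_add (abs_add_le _ _) (abs_add_le _ _)).trans ?_)
    linarith [abs_mul_le k2 h.h0, abs_mul_le k1 h.h1, abs_mul_le k0 h.h11]
  · rw [(d1_congr e2).eq_of_nhds, d1_cut c0 g2]
    exact (abs_add_le _ _).trans (by linarith [abs_mul_le k1 h.h2, abs_mul_le k0 h.h12])
  · rw [(d2_congr e2).eq_of_nhds, d2_cut c0 g2]
    exact (abs_mul_le k0 h.h22).trans (by linarith)

theorem bdd_of_const {φ : ℝ → ℝ} (hc : Continuous φ) (h : ∀ t, t ∉ Icc (0 : ℝ) 1 → φ t = 0) :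
    ∃ K, ∀ t, |φ t| ≤ K := by
  obtain ⟨K, hK⟩ := isCompact_Icc.exists_bound_of_continuousOn (hc.continuousOn (s := Icc (0 : ℝ) 1))
  refine ⟨K, fun t => ?_⟩
  by_cases ht : t ∈ Icc (0 : ℝ) 1
  · exact hK t ht
  · rw [h t ht, abs_zero]
    exact (norm_nonneg _).trans (hK 0 (by simp))

theorem st_bd : ∃ K, 1 ≤ K ∧ ∀ X t : ℝ, |st (X - 1) (X - 2) t| ≤ K ∧
    |deriv (st (X - 1) (X - 2)) t| ≤ K ∧ |deriv (deriv (st (X - 1) (X - 2))) t| ≤ K := by
  have c0 := contDiff_st 1 0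
  have c1 : ContDiff ℝ ∞ (deriv (st 1 0)) := (contDiff_infty_iff_deriv.1 c0).2
  have c2 : ContDiff ℝ ∞ (deriv (deriv (st 1 0))) := (contDiff_infty_iff_deriv.1 c1).2
  have z : ∀ t, t ∉ Icc (0 : ℝ) 1 → ∃ c, st 1 0 =ᶠ[𝓝 t] fun _ => c := fun t ht => by
    rcases not_and_or.1 ht with h | h
    · exact ⟨1, (gt_mem_nhds (not_le.1 h)).mono fun s hs => st_one' one_pos (le_of_lt hs)⟩
    · exact ⟨0, (lt_mem_nhds (not_le.1 h)).mono fun s hs => st_zero' one_pos (le_of_lt hs)⟩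
  obtain ⟨K1, h1⟩ := bdd_of_const c1.continuous fun t ht => by
    obtain ⟨c, hc⟩ := z t ht
    rw [hc.deriv_eq, deriv_const]
  obtain ⟨K2, h2⟩ := bdd_of_const c2.continuous fun t ht => by
    obtain ⟨c, hc⟩ := z t ht
    rw [hc.deriv.deriv_eq]
    simp
  have p1 := (abs_nonneg _).trans (h1 0)
  have p2 := (abs_nonneg _).trans (h2 0)
  refine ⟨1 + K1 + K2, by linarith, fun X t => ?_⟩
  have e : st (X - 1) (X - 2) = fun t => st 1 0 (t - (X - 2)) := funext fun t => by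
    simp only [st]; congr 1; ring
  have e1 : deriv (st (X - 1) (X - 2)) = fun t => deriv (st 1 0) (t - (X - 2)) := funext fun t => by
    rw [e, deriv_comp_sub_const]
  refine ⟨?_, ?_, ?_⟩
  · rw [abs_of_nonneg (st_nonneg _ _ _)]
    linarith [st_le_one (X - 1) (X - 2) t]
  · rw [e1]
    linarith [h1 (t - (X - 2))]
  · rw [e1, deriv_comp_sub_const]
    linarith [h2 (t - (X - 2))]

/-- the function `g` cut off on `[X - 2, X - 1]` -/
def cut (X : ℝ) (g : ℝ × ℝ → ℝ) (y : ℝ × ℝ) : ℝ := st (X - 1) (X - 2) y.1 * g y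

variable {X a : ℝ}

theorem cut_eq (h : q.1 ≤ X - 2) : cut X g q = g q := by
  rw [cut, st_one' (by linarith) h, one_mul]

theorem cut_ev (h : q.1 < X - 2) : cut X g =ᶠ[𝓝 q] g :=
  (continuous_fst.continuousAt.eventually (gt_mem_nhds h)).mono fun _ hy => cut_eq hy.le

theorem cut_ev_zero (h : X - 1 < q.1) : cut X g =ᶠ[𝓝 q] fun _ => 0 :=
  (continuous_fst.continuousAt.eventually (lt_mem_nhds h)).mono fun _ hy => by
    rw [cut, st_zero' (by linarith) hy.le, zero_mul]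

theorem per_cut (h : Per g) : Per (cut X g) := fun s θ => by simp only [cut, h s θ]

theorem cda_strip (hg : ContDiffOn ℝ ∞ g {q | a < q.1 ∧ q.1 < X}) (h1 : a < q.1) (h2 : q.1 < X) :
    ContDiffAt ℝ ∞ g q :=
  hg.contDiffAt (((isOpen_lt continuous_const continuous_fst).inter
    (isOpen_lt continuous_fst continuous_const)).mem_nhds ⟨h1, h2⟩)

theorem sm_cut (hg : ContDiffOn ℝ ∞ g {q | a < q.1 ∧ q.1 < X}) :
    ContDiffOn ℝ ∞ (cut X g) {q | a < q.1} := fun q hq => by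
  by_cases h : q.1 < X
  · exact (((contDiff_st _ _).comp contDiff_fst).contDiffAt.mul (cda_strip hg hq h)).contDiffWithinAt
  · exact (contDiffAt_const.congr_of_eventuallyEq (cut_ev_zero (by linarith))).contDiffWithinAt

theorem abs_cut_le (h : ∀ q : ℝ × ℝ, a < q.1 → q.1 < X → |g q| ≤ ε) (hε : 0 ≤ ε) (hq : a < q.1) :
    |cut X g q| ≤ ε := by
  by_cases h1 : q.1 < X
  · have := abs_mul_le ((abs_of_nonneg (st_nonneg (X - 1) (X - 2) q.1)).le.trans (st_le_one _ _ _))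
      (h q hq h1)
    rwa [one_mul] at this
  · rw [(cut_ev_zero (by linarith)).eq_of_nhds, abs_zero]
    exact hε

/-- **2-jets of the cut-off function** -/
theorem j2le_cut : ∃ K, 1 ≤ K ∧ ∀ (X a ε : ℝ) (g : ℝ × ℝ → ℝ) (q : ℝ × ℝ), 0 ≤ ε →
    ContDiffOn ℝ ∞ g {q | a < q.1 ∧ q.1 < X} → a < q.1 → (q.1 < X → J2le g ε q) →
    J2le (cut X g) (K * ε) q := by
  obtain ⟨K, K1, hK⟩ := st_bd
  refine ⟨4 * K, by linarith, fun X a ε g q hε hg h1 h => ?_⟩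
  by_cases h2 : q.1 < X
  · rw [mul_assoc]
    exact j2le_mul (contDiff_st _ _) (hK X _).1 (hK X _).2.1 (hK X _).2.2
      ((cda_strip hg h1 h2).of_le (WithTop.coe_le_coe.2 (le_top : (2 : ℕ∞) ≤ ⊤))) (h h2)
  · exact j2le_congr (cut_ev_zero (by linarith)) (j2le_zero (by positivity))

end Crest.Agent.N250.Rl

end
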