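import Crest.Agent.N250.Im.Near
import Crest.Agent.N250.Gc.Area
import Crest.Agent.N250.T.Reach

/-!
# Row 250 (helper14): the image of a static surface under `x + Y x`, `Y` a contraction
-/

set_option autoImplicit false
open MeasureTheory Set Filter Topology
open scoped ContDiff InnerProductSpace
open Crest.GeometryTopology.MCF

noncomputable section

namespace Crest.Agent.N250.Rl

open Gc Mv

/-- the map `x + Y x` -/
def XY (Y : E → E) (p : ST) : E := p.1 + Y p.1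

/-- the components of `Y` -/
def Yc (Y : E → E) (c : Fin 3) (p : ST) : ℝ := Y p.1 c

/-- what is known about the image `G` of `S` under `x + Y x` -/
structure Out (S : Mv) (Y : E → E) (G : Mv) (ρ₀ : ℝ) : Prop where
  par : S.Par G (XY Y)
  reg : G.Reg
  st : G.Static
  closed : IsClosed G.M
  sl : G.sl 0 = (fun y => y + Y y) '' S.sl 0
  reach : ∀ x ∈ G.sl 0, G.Reach (x, 0) ρ₀
  lip : ∀ x ∈ S.sl 0, ∀ y ∈ S.sl 0, ‖x - y‖ ≤ 2 * ‖x + Y x - (y + Y y)‖ ∧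
    ‖x + Y x - (y + Y y)‖ ≤ 2 * ‖x - y‖
  ori : ∀ x ∈ S.sl 0, 0 ≤ ⟪S.n (x, 0), G.n (x + Y x, 0)⟫_ℝ
  ar : ∀ Λ, S.AR Λ → G.AR (64 * Λ)

theorem n_Nv {n : Fin 3 → ℝ} {J : Fin 3 → Fin 3 → ℝ} (h : Fr n J) :
    dot n (Nv n J) = dot (fun c => J 0 c + n 0 * n c)
      (cr (fun c => J 1 c + n 1 * n c) fun c => J 2 c + n 2 * n c) := by
  have h1 := h.N_J 0
  have h2 : dot (J 0) (cof J 0) = n 0 * dot (Nv n J) (J 0) := by
    simp only [dot, h.cof_eq, Fin.sum_univ_three]; ring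
  rw [h1, mul_zero] at h2
  simp only [dot, cof, cr, Nv, Fin.sum_univ_three, f01, f02, f11, f12, f21, f22] at h2 ⊢
  linear_combination -h2

theorem det_pos {d : Fin 3 → Fin 3 → ℝ} (h : ∀ a c, |d a c| ≤ 1 / 100) :
    0 < dot (fun c => (if (0 : Fin 3) = c then 1 else 0) + d 0 c)
      (cr (fun c => (if (1 : Fin 3) = c then 1 else 0) + d 1 c)
        fun c => (if (2 : Fin 3) = c then 1 else 0) + d 2 c) := by
  have h2 : ∀ a c a' c', |d a c * d a' c'| ≤ 1 / 100 * (1 / 100) := fun a c a' c' => by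
    rw [abs_mul]; exact mul_le_mul (h a c) (h a' c') (abs_nonneg _) (by norm_num)
  have h3 : ∀ a c a' c' a'' c'', |d a c * d a' c' * d a'' c''| ≤ 1 / 100 * (1 / 100) * (1 / 100) :=
    fun a c a' c' a'' c'' => by
      rw [abs_mul]; exact mul_le_mul (h2 a c a' c') (h a'' c'') (abs_nonneg _) (by norm_num)
  simp [dot, cr, Fin.sum_univ_three, f11, f12, f21, f22]
  linarith [abs_le.1 (h 0 0), abs_le.1 (h 1 1), abs_le.1 (h 2 2), abs_le.1 (h2 0 0 1 1),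
    abs_le.1 (h2 0 0 2 2), abs_le.1 (h2 1 1 2 2), abs_le.1 (h2 0 1 1 0), abs_le.1 (h2 0 2 2 0),
    abs_le.1 (h2 1 2 2 1), abs_le.1 (h3 0 0 1 1 2 2), abs_le.1 (h3 0 0 1 2 2 1),
    abs_le.1 (h3 0 1 1 2 2 0), abs_le.1 (h3 0 1 1 0 2 2), abs_le.1 (h3 0 2 1 0 2 1),
    abs_le.1 (h3 0 2 1 1 2 0)]

variable {S G : Mv} {Y : E → E} {p : ST}

theorem sm_XY (hY : S.Sm fun p => Y p.1) : S.Sm (XY Y) := Im.sm_add_id hY

theorem sm_Yc (hY : S.Sm fun p => Y p.1) (c : Fin 3) : S.Sm (Yc Y c) := Im.sm_coord hY c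

theorem cp_XY (c : Fin 3) : cp (XY Y) c = S.pre.x c + Yc Y c := rfl

theorem JX_XY (hS : S.Reg) (hY : S.Sm fun p => Y p.1) (hp : p ∈ S.M) (a c : Fin 3) :
    S.JX (XY Y) p a c = (if a = c then 1 else 0) - S.nu a p * S.nu c p + S.D a (Yc Y c) p := by
  rw [JX, cp_XY (S := S), hS.D_add hp (sm_x c) (sm_Yc hY c), ← hS.P_eq hp]
  rfl

theorem KX_XY (hS : S.Reg) (hY : S.Sm fun p => Y p.1) (hp : p ∈ S.M) (a b c : Fin 3) :
    S.KX (XY Y) p a b c = -(S.nu b p * S.A a c p + S.A a b p * S.nu c p) +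
      S.D a (S.D b (Yc Y c)) p := by
  have e : ∀ q ∈ S.M, S.D b (cp (XY Y) c) q =
      ((((fun _ => if b = c then 1 else 0) - S.nu b * S.nu c) + S.D b (Yc Y c) : ST → ℝ)) q :=
    fun q hq => JX_XY hS hY hq b c
  have s1 := (hS.sm_nu b).mul (hS.sm_nu c)
  rw [KX, D_congr' hp e, hS.D_add hp ((sm_const _).sub s1) (hS.sm_D (sm_Yc hY c) b),
    hS.D_sub hp (sm_const _) s1, hS.D_const hp, hS.D_mul hp (hS.sm_nu b) (hS.sm_nu c), zero_sub]
  rfl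

theorem n_NX (hS : S.Reg) (hY : S.Sm fun p => Y p.1) (hp : p ∈ S.M)
    (h : ∀ a c, |S.D a (Yc Y c) p| ≤ 1 / 100) : 0 < ⟪S.n p, S.NX (XY Y) p⟫_ℝ := by
  have e := n_Nv (hS.fr hp (XY Y))
  have e2 : ∀ a c, S.JX (XY Y) p a c + S.nu a p * S.nu c p =
      (if a = c then 1 else 0) + S.D a (Yc Y c) p := fun a c => by rw [JX_XY hS hY hp]; ring
  simp only [e2] at e
  have := det_pos h
  rw [← e] at this
  rw [inner_eq_dot]
  exact this

theorem sl_closed (h : IsClosed S.M) : IsClosed (S.sl 0) := h.preimage (Continuous.prodMk_left 0)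

theorem cpt (h : IsClosed S.M) (q : E) (d : ℝ) : IsCompact (S.sl 0 ∩ Metric.closedBall q d) :=
  (isCompact_closedBall q d).inter_left (sl_closed h)

theorem ar_static (hG : G.Static) {Λ : ℝ}
    (h : ∀ y r, 0 < r → G.mu 0 (Metric.ball y r) ≤ ENNReal.ofReal (Λ * r ^ 2)) : G.AR Λ := by
  intro t y r hr
  have : G.sl t = G.sl 0 := Set.ext fun x => hG.mem x t
  rw [mu, this]
  exact h y r hr

/-- **the image under `x + Y x`** -/
theorem out_of_lip (hS : S.Reg) (hst : S.Static) (hc : IsClosed S.M) {ρ C₁ C₀ : ℝ} (hρ : 0 < ρ)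
    (hR : ∀ x ∈ S.sl 0, S.Reach (x, 0) ρ) (hA : ∀ x ∈ S.sl 0, ∀ a b, |S.A a b (x, 0)| ≤ C₁)
    (hY : S.Sm fun p => Y p.1) (h1 : ∀ x ∈ S.sl 0, ∀ a c, |S.D a (Yc Y c) (x, 0)| ≤ 1 / 100)
    (h2 : ∀ x ∈ S.sl 0, ∀ a b c, |S.D a (S.D b (Yc Y c)) (x, 0)| ≤ C₀)
    (hl : ∀ x ∈ S.sl 0, ∀ y ∈ S.sl 0, ‖Y x - Y y‖ ≤ 1 / 2 * ‖x - y‖) {σ : ℝ} (hσ : 0 < σ)
    (s1 : σ ≤ ρ / 4) (s2 : 256 * (2 * C₁ + C₀) * σ ≤ 1) : Out S Y (S.img (XY Y)) σ := by
  have hX : ∀ x t, XY Y (x, t) = XY Y (x, 0) := fun _ _ => rfl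
  have lip : ∀ x ∈ S.sl 0, ∀ y ∈ S.sl 0, ‖x - y‖ ≤ 2 * ‖x + Y x - (y + Y y)‖ ∧
      ‖x + Y x - (y + Y y)‖ ≤ 2 * ‖x - y‖ := fun x hx y hy =>
    Im.co_lip (by simpa only [add_sub_cancel_left] using hl x hx y hy)
  have em : S.Emb (XY Y) := by
    refine ⟨hS, sm_XY hY, fun p hp h0 => ?_, hst.emb hX fun x hx U hU => ?_⟩
    · have hp' : (p.1, 0) ∈ S.M := (hst.mem p.1 p.2).1 hp
      have := n_NX hS hY hp' (h1 _ hp')
      rw [← hst.NX_eq hX p.1 p.2, h0, inner_zero_right] at this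
      exact lt_irrefl _ this
    · obtain ⟨ε, h0, h3⟩ := Metric.mem_nhds_iff.1 hU
      refine ⟨Metric.ball _ (ε / 2), Metric.ball_mem_nhds _ (by positivity), fun y hy h4 => h3 ?_⟩
      have := (lip y hy x hx).1
      rw [mem_ball_iff_norm] at h4 ⊢
      change ‖y + Y y - (x + Y x)‖ < ε / 2 at h4
      linarith
  have hp := em.par
  have hG := hp.reg'
  have gs := em.static hst hX
  have sl := hp.sl_eq 0
  refine ⟨hp, hG, gs, ?_, sl, fun z hz => ?_, lip, fun x hx => ?_, fun Λ hΛ => ar_static gs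
    fun y r hr => Im.mu_img sl lip (hΛ 0) y hr⟩
  · refine isClosed_of_closure_subset fun P hP => Im.proper_static gs (U := univ)
      (fun z hz _ => ?_) P hP ⟨trivial, trivial⟩
    obtain ⟨w, hw, hzw⟩ := Metric.mem_closure_iff.1 hz 1 one_pos |>.imp fun _ h => h
    have hw' := hw
    rw [sl] at hw'
    obtain ⟨x, hx, rfl⟩ := hw'
    refine Im.closed_img em.sm.continuousOn sl hz (cpt hc x 4) inter_subset_left
      (Metric.ball_mem_nhds z one_pos) fun y hy h3 => ⟨hy, ?_⟩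
    have h4 := (lip y hy x hx).1
    have h5 := dist_triangle (y + Y y) z (x + Y x)
    rw [dist_eq_norm (y + Y y) (x + Y x)] at h5
    rw [mem_closedBall_iff_norm]
    have h6 : dist (y + Y y) z < 1 := h3
    have h7 : dist z (x + Y x) < 1 := hzw
    linarith
  · rw [sl] at hz
    obtain ⟨x, hx, rfl⟩ := hz
    refine Im.reach_img hS hG em.sm sl hx hρ (cpt hc x ρ) (fun y hy => hR y hy.1)
      (C := 2 * C₁ + C₀) (fun y hy a b c => ?_) (fun y hy => (lip y hy x hx).1) hσ s1 s2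
    have e := KX_XY hS hY hy.1 a b c
    change |S.KX (XY Y) (y, 0) a b c| ≤ _
    have hν : ∀ a, |S.nu a (y, 0)| ≤ 1 := fun a => (Im.abs_coord_le _ a).trans (hS.norm_n hy.1).le
    have b1 : |S.nu b (y, 0) * S.A a c (y, 0)| ≤ C₁ := by
      rw [abs_mul]
      exact (mul_le_of_le_one_left (abs_nonneg _) (hν b)).trans (hA y hy.1 a c)
    have b2 : |S.A a b (y, 0) * S.nu c (y, 0)| ≤ C₁ := by
      rw [abs_mul]
      exact (mul_le_of_le_one_right (abs_nonneg _) (hν c)).trans (hA y hy.1 a b)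
    have b3 := h2 y hy.1 a b c
    rw [e]
    rw [abs_le] at b1 b2 b3 ⊢
    constructor <;> linarith [b1.1, b1.2, b2.1, b2.2, b3.1, b3.2]
  · have e := hp.n_eq (x, 0) hx
    change (S.img (XY Y)).n (x + Y x, 0) = _ at e
    rw [e, inner_smul_right]
    exact mul_nonneg (inv_nonneg.2 (sX_nonneg _)) (n_NX hS hY hx (h1 x hx)).le

/-- **`Near`** from the smallness of two jets of `Y` on `B_{2R + 2|Y x₀|}`-type sets -/
theorem Out.near {ρ ρ₀ R η ε : ℝ} (h : Out S Y G ρ₀) (hρ : 0 < ρ) (hρ₀ : ρ ≤ ρ₀)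
    (hR : ∀ x ∈ S.sl 0, S.Reach (x, 0) ρ) (hY : S.Sm fun p => Y p.1) (hε : ε ≤ 1 / 10)
    (e1 : 6 * ε < η) (e2 : (84 / ρ + 2) * ε < η)
    (hb : ∀ y ∈ S.sl 0, (‖y‖ < R ∨ ‖y + Y y‖ < R) → ‖Y y‖ ≤ ε ∧
      (∀ a c, |S.D a (Yc Y c) (y, 0)| ≤ ε) ∧ ∀ a b c, |S.D a (S.D b (Yc Y c)) (y, 0)| ≤ ε) :
    Near G S R η := by
  have hS := h.par.reg
  have k : 2 / ρ ^ 2 ≤ (2 / ρ) ^ 2 := by
    rw [div_pow]; gcongr; norm_num
  refine Im.near_img (Y := fun p => Y p.1) (κ := 2 / ρ) hS h.reg hY h.sl Subset.rfl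
    (fun _ h _ => h) (fun _ _ => ⟨rfl, fun _ _ => rfl⟩) hε (by positivity) e1
    (by convert e2 using 3; ring) fun y hy hyR => ?_
  obtain ⟨b1, b2, b3⟩ := hb y hy hyR
  have hm : y + Y y ∈ G.sl 0 := h.sl ▸ mem_image_of_mem (fun y => y + Y y) hy
  exact ⟨b1, b2, b3, h.ori y hy, (reachAS_holds S hS _ hy ρ hρ (hR y hy)).2.trans k,
    (reachAS_holds G h.reg _ hm ρ hρ (Rch.reach_mono (h.reg.norm_n hm) (h.reach _ hm)
      hρ₀)).2.trans k⟩

end Crest.Agent.N250.Rl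

end
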