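import Crest.Agent.N250.Rl.Img2
import Crest.Agent.N250.Po.Area

/-!
# Row 250 (helper14): pointwise calculus of low order jets, lifts of strip functions
-/

set_option autoImplicit false
open MeasureTheory Set Filter Topology
open scoped ContDiff InnerProductSpace
open Crest.GeometryTopology.MCF

noncomputable section

namespace Crest.Agent.N250.Rl

open Mv Po

/-- value and first derivatives at most `α` -/
structure J0 (F : Mv) (f : ST → ℝ) (α : ℝ) (p : ST) : Prop where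
  h0 : |f p| ≤ α
  h1 : ∀ a, |F.D a f p| ≤ α

/-- first and second derivatives at most `α` -/
def J1 (F : Mv) (f : ST → ℝ) (α : ℝ) (p : ST) : Prop := ∀ b, J0 F (F.D b f) α p

/-- the 2-jet is at most `α` -/
structure J2 (F : Mv) (f : ST → ℝ) (α : ℝ) (p : ST) : Prop where
  h0 : |f p| ≤ α
  h1 : J1 F f α p

variable {F : Mv} {f g : ST → ℝ} {α β : ℝ} {p : ST}

theorem abs_mul_le {x y : ℝ} (h : |x| ≤ α) (h' : |y| ≤ β) : |x * y| ≤ α * β := by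
  rw [abs_mul]; exact mul_le_mul h h' (abs_nonneg _) ((abs_nonneg _).trans h)

theorem J0.nonneg (h : J0 F f α p) : 0 ≤ α := (abs_nonneg _).trans h.h0

theorem J0.mono (h : J0 F f α p) (hα : α ≤ β) : J0 F f β p :=
  ⟨h.h0.trans hα, fun a => (h.h1 a).trans hα⟩

theorem J1.mono (h : J1 F f α p) (hα : α ≤ β) : J1 F f β p := fun b => (h b).mono hα

theorem J2.mono (h : J2 F f α p) (hα : α ≤ β) : J2 F f β p := ⟨h.h0.trans hα, h.h1.mono hα⟩

theorem J2.j0 (h : J2 F f α p) : J0 F f α p := ⟨h.h0, fun a => (h.h1 a).h0⟩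

theorem J0.congr (h : J0 F f α p) (hp : p ∈ F.M) (e : ∀ q ∈ F.M, g q = f q) : J0 F g α p :=
  ⟨e p hp ▸ h.h0, fun a => D_congr' hp e a ▸ h.h1 a⟩

theorem J1.congr (h : J1 F f α p) (hp : p ∈ F.M) (e : ∀ q ∈ F.M, g q = f q) : J1 F g α p :=
  fun b => (h b).congr hp fun _ hq => D_congr' hq e b

section

variable (hF : F.Reg) (hp : p ∈ F.M) (hf : F.Sm f) (hg : F.Sm g)
include hF hp hf

theorem J0.cmul (h : J0 F f α p) {c : ℝ} (hc : |c| ≤ β) : J0 F (fun q => c * f q) (β * α) p :=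
  ⟨abs_mul_le hc h.h0, fun a => by rw [hF.D_const_mul hp c hf]; exact abs_mul_le hc (h.h1 a)⟩

theorem J1.cmul (h : J1 F f α p) {c : ℝ} (hc : |c| ≤ β) : J1 F (fun q => c * f q) (β * α) p :=
  fun b => ((h b).cmul hF hp (hF.sm_D hf b) hc).congr hp fun _ hq => hF.D_const_mul hq c hf b

theorem D_inv (h0 : f p ≠ 0) (a : Fin 3) :
    F.D a (fun q => (f q)⁻¹) p = -((f p)⁻¹ * (f p)⁻¹) * F.D a f p := by
  rw [hF.D_comp hp (ψ := fun s => s⁻¹) hf (hasDerivAt_inv h0), sq, mul_inv]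

theorem j0_inv (h1 : 1 ≤ f p) (h : ∀ a, |F.D a f p| ≤ α) (hα : 1 ≤ α) :
    J0 F (fun q => (f q)⁻¹) α p := by
  have h2 : |(f p)⁻¹| ≤ 1 := by
    rw [abs_of_pos (by positivity)]; exact inv_le_one_of_one_le₀ h1
  refine ⟨h2.trans hα, fun a => ?_⟩
  rw [D_inv hF hp hf (by positivity), neg_mul, abs_neg]
  simpa using abs_mul_le (abs_mul_le h2 h2) (h a)

include hg

theorem J0.add (h : J0 F f α p) (h' : J0 F g β p) : J0 F (f + g) (α + β) p :=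
  ⟨(abs_add_le _ _).trans (add_le_add h.h0 h'.h0), fun a => by
    rw [hF.D_add hp hf hg]; exact (abs_add_le _ _).trans (add_le_add (h.h1 a) (h'.h1 a))⟩

theorem J0.sub (h : J0 F f α p) (h' : J0 F g β p) : J0 F (f - g) (α + β) p :=
  ⟨(abs_sub _ _).trans (add_le_add h.h0 h'.h0), fun a => by
    rw [hF.D_sub hp hf hg]; exact (abs_sub _ _).trans (add_le_add (h.h1 a) (h'.h1 a))⟩

theorem J0.mul (h : J0 F f α p) (h' : J0 F g β p) : J0 F (f * g) (2 * (α * β)) p := by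
  have := mul_nonneg h.nonneg h'.nonneg
  refine ⟨(abs_mul_le h.h0 h'.h0).trans (by linarith), fun a => ?_⟩
  rw [hF.D_mul hp hf hg, two_mul]
  exact (abs_add_le _ _).trans (add_le_add (abs_mul_le h.h0 (h'.h1 a)) (abs_mul_le (h.h1 a) h'.h0))

theorem J1.add (h : J1 F f α p) (h' : J1 F g β p) : J1 F (f + g) (α + β) p := fun b =>
  ((h b).add hF hp (hF.sm_D hf b) (hF.sm_D hg b) (h' b)).congr hp fun _ hq => hF.D_add hq hf hg b

theorem J2.add (h : J2 F f α p) (h' : J2 F g β p) : J2 F (f + g) (α + β) p :=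
  ⟨(abs_add_le _ _).trans (add_le_add h.h0 h'.h0), h.h1.add hF hp hf hg h'.h1⟩

theorem J2.mul (h : J2 F f α p) (h' : J2 F g β p) : J2 F (f * g) (4 * (α * β)) p := by
  have := mul_nonneg h.j0.nonneg h'.j0.nonneg
  refine ⟨(abs_mul_le h.h0 h'.h0).trans (by linarith), fun b => ?_⟩
  refine (((h.j0.mul hF hp hf (hF.sm_D hg b) (h'.h1 b)).add hF hp (hf.mul (hF.sm_D hg b))
    ((hF.sm_D hf b).mul hg) ((h.h1 b).mul hF hp (hF.sm_D hf b) hg h'.j0)).congr hp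
    fun q hq => hF.D_mul hq hf hg b).mono (le_of_eq (by ring))

end

theorem j2_inv (hF : F.Reg) (hp : p ∈ F.M) (hf : F.Sm f) (h1 : ∀ q ∈ F.M, 1 ≤ f q)
    (h : J1 F f α p) (hα : 1 ≤ α) : J2 F (fun q => (f q)⁻¹) (4 * α ^ 3) p := by
  have h0 : ∀ q ∈ F.M, f q ≠ 0 := fun q hq => (one_pos.trans_le (h1 q hq)).ne'
  have s : F.Sm fun q => (f q)⁻¹ := ContDiffOn.inv hf h0
  have j := j0_inv hF hp hf (h1 p hp) (fun a => (h a).h0) hα
  refine ⟨j.h0.trans (by nlinarith [mul_nonneg (sub_nonneg.2 hα) (sq_nonneg α), sq_nonneg (α - 1)]),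
    fun b => ?_⟩
  refine ((((j.mul hF hp s s j).mul hF hp (s.mul s) (hF.sm_D hf b) (h b)).cmul hF hp
    ((s.mul s).mul (hF.sm_D hf b)) (c := -1) (β := 1) (by simp)).congr hp
    fun q hq => ?_).mono (le_of_eq (by ring))
  rw [D_inv hF hq hf (h0 q hq)]
  simp

/-- `√(1 + u) - 1` -/
theorem j2_sqrt (hF : F.Reg) (hp : p ∈ F.M) (hf : F.Sm f) (h1 : ∀ q ∈ F.M, |f q| ≤ 1 / 2)
    (h : J2 F f α p) : (F.Sm fun q => √(1 + f q) - 1) ∧
      J2 F (fun q => √(1 + f q) - 1) (2 * ((1 + 2 * α) * α)) p := by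
  have h0 : ∀ q ∈ F.M, 1 + f q ≠ 0 := fun q hq => by linarith [(abs_le.1 (h1 q hq)).1]
  have h2 : ∀ q ∈ F.M, 1 ≤ 2 * √(1 + f q) := fun q hq => by
    have : 1 / 2 ≤ √(1 + f q) := Real.le_sqrt_of_sq_le (by linarith [(abs_le.1 (h1 q hq)).1])
    linarith
  have s1 : F.Sm fun q => √(1 + f q) := ContDiffOn.sqrt (contDiffOn_const.add hf) h0
  have s2 : F.Sm fun q => 2 * √(1 + f q) := contDiffOn_const.mul s1
  have s3 : F.Sm fun q => (2 * √(1 + f q))⁻¹ :=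
    ContDiffOn.inv s2 fun q hq => (one_pos.trans_le (h2 q hq)).ne'
  have hα := h.j0.nonneg
  have d : ∀ c : ℝ, ∀ q ∈ F.M, ∀ b, F.D b (fun q => √(1 + f q) - c) q =
      (2 * √(1 + f q))⁻¹ * F.D b f q := fun c q hq b => by
    rw [hF.D_comp hq (ψ := fun s => √(1 + s) - c) hf
      ((((hasDerivAt_id (f q)).const_add 1).sqrt (h0 q hq)).sub_const c), one_div]
    rfl
  have b1 : |(2 * √(1 + f p))⁻¹| ≤ 1 := by
    have := h2 p hp
    rw [abs_of_pos (by positivity)]; exact inv_le_one_of_one_le₀ this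
  have j : J0 F (fun q => (2 * √(1 + f q))⁻¹) (1 + 2 * α) p :=
    j0_inv hF hp s2 (h2 p hp) (fun a => by
      have e := d 0 p hp a
      simp only [sub_zero] at e
      rw [hF.D_const_mul hp 2 s1, e, abs_mul, abs_two]
      linarith [abs_mul_le b1 (h.j0.h1 a)]) (by linarith)
  refine ⟨s1.sub (sm_const 1), ?_, fun b => (j.mul hF hp s3 (hF.sm_D hf b) (h.h1 b)).congr hp
    fun q hq => d 1 q hq b⟩
  have e : (√(1 + f p) - 1) * (√(1 + f p) + 1) = f p := by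
    have := Real.mul_self_sqrt (show 0 ≤ 1 + f p by linarith [(abs_le.1 (h1 p hp)).1])
    linarith
  have b2 : |√(1 + f p) - 1| ≤ |f p| := by
    conv_rhs => rw [← e, abs_mul]
    refine le_mul_of_one_le_right (abs_nonneg _) ?_
    rw [abs_of_nonneg (by positivity)]
    linarith [Real.sqrt_nonneg (1 + f p)]
  refine (b2.trans h.h0).trans ?_
  nlinarith

theorem j1_x (hF : F.Reg) (hp : p ∈ F.M) (hA : ∀ a b, |F.A a b p| ≤ α) (c : Fin 3) :
    J1 F (F.pre.x c) (2 + 2 * α) p := fun b => by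
  have hν : ∀ a, |F.nu a p| ≤ 1 := fun a => (Im.abs_coord_le _ a).trans (hF.norm_n hp).le
  have h0 : 0 ≤ α := (abs_nonneg _).trans (hA 0 0)
  have j : ∀ a, J0 F (F.nu a) (1 + α) p := fun a =>
    ⟨(hν a).trans (by linarith), fun i => (hA i a).trans (by linarith)⟩
  have e : ∀ q ∈ F.M, F.D b (F.pre.x c) q =
      (((fun _ => if b = c then 1 else 0) - F.nu b * F.nu c : ST → ℝ)) q := fun q hq => hF.P_eq hq b c
  refine J0.congr ⟨?_, fun a => ?_⟩ hp e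
  · have := abs_mul_le (hν b) (hν c)
    refine (abs_sub _ _).trans ?_
    rw [Pi.mul_apply]
    split_ifs <;> simp only [abs_one, abs_zero] <;> linarith
  · rw [hF.D_sub hp (sm_const _) ((hF.sm_nu b).mul (hF.sm_nu c)), hF.D_const hp,
      hF.D_mul hp (hF.sm_nu b) (hF.sm_nu c), zero_sub, abs_neg]
    have b1 := abs_mul_le (hν b) (hA a c)
    have b2 := abs_mul_le (hA a b) (hν c)
    exact (abs_add_le _ _).trans (by simp only [A] at b1 b2; linarith)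

theorem sm_lin (F : Mv) (l : E →L[ℝ] ℝ) : F.Sm fun q => l q.1 :=
  sm_of_contDiff (l.contDiff.comp contDiff_fst)

theorem j1_lin (hF : F.Reg) (hp : p ∈ F.M) (hA : ∀ a b, |F.A a b p| ≤ α) (l : E →L[ℝ] ℝ)
    (hl : ∀ d, |l (ee d)| ≤ β) : J1 F (fun q => l q.1) (β * (6 + 6 * α)) p := by
  have s : ∀ d, F.Sm fun q => l (ee d) * F.pre.x d q := fun d => (sm_const _).mul (sm_x d)
  have j : ∀ d, J1 F (fun q => l (ee d) * F.pre.x d q) (β * (2 + 2 * α)) p := fun d =>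
    (j1_x hF hp hA d).cmul hF hp (sm_x d) (hl d)
  refine ((((j 0).add hF hp (s 0) (s 1) (j 1)).add hF hp ((s 0).add (s 1)) (s 2) (j 2)).congr hp
    fun q _ => ?_).mono (le_of_eq (by ring))
  conv_lhs => rw [eq_sum_ee q.1]
  simp only [Fin.sum_univ_three, map_add, map_smul, smul_eq_mul, Pi.add_apply, mul_comm]
  rfl

theorem D_lin (hF : F.Reg) (hp : p ∈ F.M) (l : E →L[ℝ] ℝ) (a : Fin 3) :
    F.D a (fun q => l q.1) p = l (F.PL p (ee a)) := by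
  have h : HasFDerivAt (fun q : ST => l q.1) _ p := l.hasFDerivAt.comp p hasFDerivAt_fst
  rw [hF.D_amb hp h.differentiableAt, h.fderiv]
  rfl

/-! ### lifts -/

variable {Q : E ≃ₗᵢ[ℝ] E} {u : ℝ × ℝ → ℝ}

/-- the coordinates in the frame `Q` -/
def yy (Q : E ≃ₗᵢ[ℝ] E) (k : Fin 3) : E →L[ℝ] ℝ :=
  (EuclideanSpace.proj (𝕜 := ℝ) k).comp Q.symm.toContinuousLinearEquiv.toContinuousLinearMap

theorem yy_apply (k : Fin 3) (x : E) : yy Q k x = Q.symm x k := rfl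

theorem yy_le (k : Fin 3) (x : E) : |yy Q k x| ≤ ‖x‖ :=
  (Im.abs_coord_le _ k).trans (Q.symm.norm_map x).le

theorem per_fd (hu : Per u) (w : ℝ × ℝ) : Per fun q => fderiv ℝ u q w := fun s θ => by
  have e : (fun q : ℝ × ℝ => u (q + (0, 2 * Real.pi))) = u := funext fun q => by
    rw [← hu q.1 q.2]; congr 1; ext <;> simp
  have := fderiv_comp_add_right (𝕜 := ℝ) (f := u) (x := (s, θ)) (0, 2 * Real.pi)
  rw [e] at this
  simp only [this, Prod.mk_add_mk, add_zero]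

theorem fd_lift (hu : Per u) {y : E} (hy : zc Q y ≠ 0) (h : DifferentiableAt ℝ u (crd Q y)) (v : E) :
    fderiv ℝ (fun z => u (crd Q z)) y v = d1 u (crd Q y) * yy Q 0 v + d2 u (crd Q y) *
      ((yy Q 1 y * yy Q 2 v - yy Q 2 y * yy Q 1 v) * (yy Q 1 y * yy Q 1 y + yy Q 2 y * yy Q 2 y)⁻¹) := by
  obtain ⟨c, h1, h2, h3⟩ := exists_branch hy
  have dc := ((h1 1).differentiableAt one_ne_zero).hasFDerivAt
  have e0 : (fun z => u (crd Q z)) =ᶠ[𝓝 y] u ∘ c := by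
    filter_upwards [h3] with z hz
    have := hu.angle (crd Q z).1 hz.2
    rw [Function.comp_apply, ← this, ← hz.1]
  have e1 : (fderiv ℝ c y v).1 = yy Q 0 v := by
    have := dc.fst.unique ((yy Q 0).hasFDerivAt.congr_of_eventuallyEq (h3.mono fun z hz => hz.1))
    exact congrArg (fun T : E →L[ℝ] ℝ => T v) this
  have e2 : (fun z => yy Q 1 z * Real.sin (c z).2 - yy Q 2 z * Real.cos (c z).2) =ᶠ[𝓝 y]
      fun _ => 0 := by
    filter_upwards [h3] with z hz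
    have a1 : Real.sin (c z).2 = Real.sin (zc Q z).arg := by
      rw [← Real.Angle.sin_coe, hz.2]; rfl
    have a2 : Real.cos (c z).2 = Real.cos (zc Q z).arg := by
      rw [← Real.Angle.cos_coe, hz.2]; rfl
    have a3 : ‖zc Q z‖ * Real.cos (zc Q z).arg = yy Q 1 z := Complex.norm_mul_cos_arg _
    have a4 : ‖zc Q z‖ * Real.sin (zc Q z).arg = yy Q 2 z := Complex.norm_mul_sin_arg _
    rw [a1, a2, ← a3, ← a4]
    ring
  have e3 := congrArg (fun T : E →L[ℝ] ℝ => T v) ((((yy Q 1).hasFDerivAt.mul dc.snd.sin).sub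
    ((yy Q 2).hasFDerivAt.mul dc.snd.cos)).unique
    ((hasFDerivAt_const (0 : ℝ) y).congr_of_eventuallyEq e2))
  have a3 : ‖zc Q y‖ * Real.cos (c y).2 = yy Q 1 y := h2 ▸ Complex.norm_mul_cos_arg _
  have a4 : ‖zc Q y‖ * Real.sin (c y).2 = yy Q 2 y := h2 ▸ Complex.norm_mul_sin_arg _
  have a5 : yy Q 1 y * yy Q 1 y + yy Q 2 y * yy Q 2 y ≠ 0 := fun h0 => hy (Complex.normSq_eq_zero.1 h0)
  have e4 : (fderiv ℝ c y v).2 = (yy Q 1 y * yy Q 2 v - yy Q 2 y * yy Q 1 v) *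
      (yy Q 1 y * yy Q 1 y + yy Q 2 y * yy Q 2 y)⁻¹ := by
    rw [eq_mul_inv_iff_mul_eq₀ a5]
    simp only [ContinuousLinearMap.sub_apply, ContinuousLinearMap.add_apply,
      ContinuousLinearMap.smul_apply, ContinuousLinearMap.comp_apply, ContinuousLinearMap.coe_snd',
      smul_eq_mul, ContinuousLinearMap.zero_apply] at e3
    linear_combination ‖zc Q y‖ * e3 - (yy Q 1 y * (fderiv ℝ c y v).2 - yy Q 2 v) * a3 -
      (yy Q 2 y * (fderiv ℝ c y v).2 + yy Q 1 v) * a4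
  rw [e0.fderiv_eq, fderiv_comp y (h2 ▸ h) dc.differentiableAt, ContinuousLinearMap.comp_apply, h2,
    ← e1, ← e4, d1, d2, mul_comm, mul_comm (fderiv ℝ u _ _), ← smul_eq_mul, ← smul_eq_mul,
    ← map_smul, ← map_smul, ← map_add]
  congr 1
  ext <;> simp

/-- the lift of a function on the strip -/
def lf (Q : E ≃ₗᵢ[ℝ] E) (u : ℝ × ℝ → ℝ) (p : ST) : ℝ := u (crd Q p.1)

/-- the coordinates as functions on spacetime -/
def yc (Q : E ≃ₗᵢ[ℝ] E) (k : Fin 3) (p : ST) : ℝ := yy Q k p.1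

/-- the squared radius -/
def ss (Q : E ≃ₗᵢ[ℝ] E) : ST → ℝ := yc Q 1 * yc Q 1 + yc Q 2 * yc Q 2

/-- the tangential derivative of the angle -/
def om (F : Mv) (Q : E ≃ₗᵢ[ℝ] E) (b : Fin 3) : ST → ℝ :=
  (yc Q 1 * F.D b (yc Q 2) - yc Q 2 * F.D b (yc Q 1)) * fun q => (ss Q q)⁻¹

theorem sm_yc (F : Mv) (k : Fin 3) : F.Sm (yc Q k) := sm_lin F _

theorem sm_ss (F : Mv) : F.Sm (ss Q) := ((sm_yc F 1).mul (sm_yc F 1)).add ((sm_yc F 2).mul (sm_yc F 2))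

theorem zc_ne (h : 1 ≤ ss Q p) : zc Q p.1 ≠ 0 := fun h0 => by
  have : ss Q p = 0 := Complex.normSq_eq_zero.2 h0
  linarith

section Lift

variable {U : Set (ℝ × ℝ)} (hF : F.Reg) (hs : ∀ q ∈ F.M, 1 ≤ ss Q q) (hU : IsOpen U)
  (hm : ∀ q ∈ F.M, crd Q q.1 ∈ U)
include hs

theorem sm_si : F.Sm fun q => (ss Q q)⁻¹ :=
  ContDiffOn.inv (sm_ss F) fun q hq => (one_pos.trans_le (hs q hq)).ne'

include hF in
theorem sm_om (b : Fin 3) : F.Sm (om F Q b) :=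
  (((sm_yc F 1).mul (hF.sm_D (sm_yc F 2) b)).sub ((sm_yc F 2).mul (hF.sm_D (sm_yc F 1) b))).mul
    (sm_si hs)

include hU hm

theorem cda_lf (hu : Per u) (h : ContDiffOn ℝ ∞ u U) (hp : p ∈ F.M) : ContDiffAt ℝ ∞ (lf Q u) p :=
  (hu.contDiffAt (zc_ne (hs p hp)) (h.contDiffAt (hU.mem_nhds (hm p hp)))).comp p contDiffAt_fst

theorem sm_lf (hu : Per u) (h : ContDiffOn ℝ ∞ u U) : F.Sm (lf Q u) := fun _ hp =>
  (cda_lf hs hU hm hu h hp).contDiffWithinAt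

include hF

theorem D_lf (hu : Per u) (h : ContDiffOn ℝ ∞ u U) (hp : p ∈ F.M) (b : Fin 3) :
    F.D b (lf Q u) p = (lf Q (d1 u) * F.D b (yc Q 0) + lf Q (d2 u) * om F Q b) p := by
  have h1 := h.contDiffAt (hU.mem_nhds (hm p hp))
  have h2 := ((hu.contDiffAt (zc_ne (hs p hp)) h1).differentiableAt (by simp)).hasFDerivAt
  have h3 : HasFDerivAt (lf Q u) _ p := h2.comp p hasFDerivAt_fst
  have e : ∀ k, F.D b (yc Q k) p = yy Q k (F.PL p (ee b)) := fun k => D_lin hF hp _ b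
  rw [hF.D_amb hp h3.differentiableAt, h3.fderiv, ContinuousLinearMap.comp_apply,
    fd_lift hu (zc_ne (hs p hp)) (h1.differentiableAt (by simp))]
  simp only [om, Pi.add_apply, Pi.mul_apply, Pi.sub_apply, e]
  rfl

omit hF hs hm in
theorem cdo_fd (h : ContDiffOn ℝ ∞ u U) (w : ℝ × ℝ) : ContDiffOn ℝ ∞ (fun q => fderiv ℝ u q w) U :=
  (h.fderiv_of_isOpen hU (by simp)).clm_apply contDiffOn_const

theorem j0_lf (hu : Per u) (h : ContDiffOn ℝ ∞ u U) (hp : p ∈ F.M) {B ε : ℝ} (hB : 1 ≤ B)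
    (h0 : J1 F (yc Q 0) B p) (ho : ∀ b, J0 F (om F Q b) B p) (b0 : |u (crd Q p.1)| ≤ ε)
    (b1 : |d1 u (crd Q p.1)| ≤ ε) (b2 : |d2 u (crd Q p.1)| ≤ ε) : J0 F (lf Q u) (2 * (ε * B)) p := by
  have : 0 ≤ ε := (abs_nonneg _).trans b0
  refine ⟨b0.trans (by nlinarith), fun a => ?_⟩
  rw [D_lf hF hs hU hm hu h hp, two_mul]
  exact (abs_add_le _ _).trans (add_le_add (abs_mul_le b1 (h0 a).h0) (abs_mul_le b2 (ho a).h0))

/-- **2-jets of lifts** -/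
theorem j2_lf (hu : Per u) (h : ContDiffOn ℝ ∞ u U) (hp : p ∈ F.M) {B ε : ℝ} (hB : 1 ≤ B)
    (h0 : J1 F (yc Q 0) B p) (ho : ∀ b, J0 F (om F Q b) B p) (b0 : |u (crd Q p.1)| ≤ ε)
    (b1 : |d1 u (crd Q p.1)| ≤ ε) (b2 : |d2 u (crd Q p.1)| ≤ ε)
    (b11 : |d1 (d1 u) (crd Q p.1)| ≤ ε) (b12 : |d1 (d2 u) (crd Q p.1)| ≤ ε)
    (b22 : |d2 (d2 u) (crd Q p.1)| ≤ ε) : J2 F (lf Q u) (8 * B ^ 2 * ε) p := by
  have : 0 ≤ ε := (abs_nonneg _).trans b0
  have b21 : |d2 (d1 u) (crd Q p.1)| ≤ ε := by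
    rwa [d21 ((h.contDiffAt (hU.mem_nhds (hm p hp))).of_le (WithTop.coe_le_coe.2 (le_top : (2 : ℕ∞) ≤ ⊤)))]
  have p1 : Per (d1 u) := per_fd hu _
  have p2 : Per (d2 u) := per_fd hu _
  have c1 : ContDiffOn ℝ ∞ (d1 u) U := cdo_fd hU h _
  have c2 : ContDiffOn ℝ ∞ (d2 u) U := cdo_fd hU h _
  have s1 := sm_lf hs hU hm p1 c1
  have s2 := sm_lf hs hU hm p2 c2
  have j1 := j0_lf hF hs hU hm p1 c1 hp hB h0 ho b1 b11 b21
  have j2 := j0_lf hF hs hU hm p2 c2 hp hB h0 ho b2 b12 b22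
  refine ⟨b0.trans (by nlinarith [mul_nonneg this (show 0 ≤ B ^ 2 - 1 by nlinarith)]), fun b => ?_⟩
  have s3 := hF.sm_D (sm_yc (Q := Q) F 0) b
  have s4 := sm_om hF hs b
  exact (((j1.mul hF hp s1 s3 (h0 b)).add hF hp (s1.mul s3) (s2.mul s4)
    (j2.mul hF hp s2 s4 (ho b))).congr hp fun q hq => D_lf hF hs hU hm hu h hq b).mono
    (le_of_eq (by ring))

end Lift

/-- uniform bounds for the coordinates, `1 / r²` and the angle form -/
theorem frame_bd (α : ℝ) : ∃ B, 1 ≤ B ∧ 6 + 6 * |α| ≤ B ∧ ∀ (F : Mv) (Q : E ≃ₗᵢ[ℝ] E) (p : ST),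
    F.Reg → (∀ q ∈ F.M, 1 ≤ ss Q q) → p ∈ F.M → ss Q p ≤ 4 → (∀ a b, |F.A a b p| ≤ α) →
    J1 F (yc Q 0) B p ∧ J2 F (fun q => (ss Q q)⁻¹) B p ∧ ∀ b, J0 F (om F Q b) B p := by
  obtain ⟨m, hm⟩ : ∃ m, m = 6 + 6 * |α| := ⟨_, rfl⟩
  have m1 : 6 ≤ m := by linarith [abs_nonneg α]
  obtain ⟨n, hn⟩ : ∃ n, n = 4 * (4 * (m * m) + 4 * (m * m)) ^ 3 := ⟨_, rfl⟩
  have n1 : 0 ≤ n := by rw [hn]; positivity
  have n2 : 0 ≤ 2 * ((2 * (m * m) + 2 * (m * m)) * n) := by positivity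
  refine ⟨m + n + 2 * ((2 * (m * m) + 2 * (m * m)) * n), by linarith, by linarith,
    fun F Q p hF hs hp h4 hA => ?_⟩
  have j : ∀ k, J1 F (yc Q k) m p := fun k =>
    (j1_lin hF hp (fun a b => (hA a b).trans (le_abs_self α)) (yy Q k) (β := 1)
      fun d => (yy_le k _).trans (Im.norm_ee d).le).mono (by rw [hm, one_mul])
  have h4' : yc Q 1 p * yc Q 1 p + yc Q 2 p * yc Q 2 p ≤ 4 := h4
  have j1 : J2 F (yc Q 1) m p := ⟨(abs_le.2 ⟨by nlinarith, by nlinarith⟩ : _ ≤ (6 : ℝ)).trans m1, j 1⟩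
  have j2 : J2 F (yc Q 2) m p := ⟨(abs_le.2 ⟨by nlinarith, by nlinarith⟩ : _ ≤ (6 : ℝ)).trans m1, j 2⟩
  have s := sm_yc (Q := Q) F
  have js : J2 F (ss Q) _ p := (j1.mul hF hp (s 1) (s 1) j1).add hF hp ((s 1).mul (s 1))
    ((s 2).mul (s 2)) (j2.mul hF hp (s 2) (s 2) j2)
  have ji := j2_inv hF hp (sm_ss F) hs js.h1 (by nlinarith)
  rw [← hn] at ji
  refine ⟨(j 0).mono (by linarith), ji.mono (by linarith), fun b => ?_⟩
  have s1 := (s 1).mul (hF.sm_D (s 2) b)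
  have s2 := (s 2).mul (hF.sm_D (s 1) b)
  exact (((j1.j0.mul hF hp (s 1) (hF.sm_D (s 2) b) (j 2 b)).sub hF hp s1 s2
    (j2.j0.mul hF hp (s 2) (hF.sm_D (s 1) b) (j 1 b))).mul hF hp (s1.sub s2) (sm_si hs)
    ji.j0).mono (by linarith)

end Crest.Agent.N250.Rl

end
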