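import Crest.Agent.N250.Rl.Cut
import Crest.Agent.N250.Fm.Pair
import Crest.Agent.N250.Fm.En

/-!
# Row 250 (helper14): real solutions define model surfaces
-/

set_option autoImplicit false
open MeasureTheory Set Filter Topology
open scoped ContDiff InnerProductSpace
open Crest.GeometryTopology.MCF

noncomputable section

namespace Crest.Agent.N250.Rl

open Mv Po Wr Fm

variable {S : Mv} {e : Ends S} {j : Fin e.p} {p : ST} {d : Dat e} {a b X₀ : ℝ} {q : ℝ × ℝ}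

/-- the end function, cut off -/
def vt (d : Dat e) (X₀ : ℝ) (j : Fin e.p) (q : ℝ × ℝ) : ℝ :=
  vS e j q + cut X₀ (fun y => d.v j y - vS e j y) q

open Classical in
/-- the global displacement -/
def YY (d : Dat e) (a X₀ : ℝ) (x : E) : E :=
  if h : ∃ j, ((x, 0) : ST) ∈ tube e j a then
    pX (d.Q h.choose) (fun q => √(2 * vt d X₀ h.choose q)) (crd (e.Q h.choose) x) - x
  else d.X (x, 0) - x

theorem vt_sub (d : Dat e) (X₀ : ℝ) (j : Fin e.p) :
    (fun y => vt d X₀ j y - vS e j y) = cut X₀ fun y => d.v j y - vS e j y :=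
  funext fun _ => add_sub_cancel_left _ _

theorem vt_eq (h : q.1 ≤ X₀ - 2) : vt d X₀ j q = d.v j q := by
  rw [vt, cut_eq h, add_sub_cancel]

theorem xi_pX' (r : ℝ × ℝ → ℝ) (q : ℝ × ℝ) : xi e j (pX (e.Q j) r q) = q.1 := by
  rw [pX, xi_Q]; simp [cylP]

theorem pX_tube' (hR : e.R ≤ a) (hq : a < q.1) : (pX (e.Q j) (e.r j) q, (0 : ℝ)) ∈ tube e j a := by
  have h := e.near j q (hR.trans_lt hq)
  refine ⟨by rw [xi_pX']; exact hq, ?_⟩
  rw [r2_eq_wv, pX, wv_pol, sq_abs]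
  nlinarith [h.1, h.2]

theorem per_pX (Q : E ≃ₗᵢ[ℝ] E) {r : ℝ × ℝ → ℝ} (hr : Per r) : Per (pX Q r) := fun s θ => by
  simp only [pX, cylP, hr s θ, Real.cos_add_two_pi, Real.sin_add_two_pi]

theorem YY_tube (hR : e.R ≤ a) {x : E} (h : ((x, 0) : ST) ∈ tube e j a) :
    x + YY d a X₀ x = pX (d.Q j) (fun q => √(2 * vt d X₀ j q)) (crd (e.Q j) x) := by
  have h1 : ∃ j, ((x, 0) : ST) ∈ tube e j a := ⟨j, h⟩
  have h2 : h1.choose = j := by
    by_contra h3
    exact tube_disj h3 (tube_mono hR h) (tube_mono hR h1.choose_spec)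
  rw [YY, dif_pos h1, h2, add_sub_cancel]

section

variable {n : ℕ} {f : Fin n → E → ℝ} {ζ c : Fin n → ℝ} {A : ℝ} (hs : d.Sol f a b X₀ ζ c A)
  (hR : e.R ≤ a)
include hs

theorem per_vt (j : Fin e.p) : Per (vt d X₀ j) := fun s θ => by
  have : Per fun y => d.v j y - vS e j y := fun s θ => by simp only [hs.per j s θ, per_vS j s θ]
  simp only [vt, per_vS j s θ, per_cut this s θ]

include hR

theorem sm_g (j : Fin e.p) : ContDiffOn ℝ ∞ (fun y => d.v j y - vS e j y) {q | a < q.1 ∧ q.1 < X₀} :=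
  (hs.smv j).sub ((sm_vS j).mono fun _ hq => hR.trans_lt hq.1)

theorem sm_vt (j : Fin e.p) : ContDiffOn ℝ ∞ (vt d X₀ j) {q | a < q.1} :=
  ((sm_vS j).mono fun _ hq => hR.trans_lt hq).add (sm_cut (sm_g hs hR j))

theorem YY_chart (hq : a < q.1) : pX (e.Q j) (e.r j) q + YY d a X₀ (pX (e.Q j) (e.r j) q) =
    pX (d.Q j) (fun q => √(2 * vt d X₀ j q)) q := by
  rw [YY_tube hR (pX_tube' hR hq)]
  exact (per_pX _ fun s θ => by simp only [per_vt hs j s θ]).crd_pX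
    (one_pos.trans (e.near j q (hR.trans_lt hq)).1)

theorem YY_en (hq : a < q.1) (h2 : q.1 ≤ X₀ - 2) :
    pX (e.Q j) (e.r j) q + YY d a X₀ (pX (e.Q j) (e.r j) q) = pX (d.Q j) (d.r j) q := by
  rw [YY_chart hs hR hq, pX, pX, vt_eq h2]
  rfl

/-- the matching holds up to the outer circle -/
theorem mt_le (hb : b < X₀) (h1 : a < q.1) (h2 : q.1 ≤ b) :
    d.X (pX (e.Q j) (e.r j) q, 0) = pX (d.Q j) (d.r j) q := by
  have c0 : ContinuousAt (fun s : ℝ => ((s, q.2) : ℝ × ℝ)) q.1 := by fun_prop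
  have c1 : ContinuousAt (pX (e.Q j) (e.r j)) q := (contDiffAt_pX ((e.sm j).contDiffAt
    ((isOpen_lt continuous_const continuous_fst).mem_nhds (hR.trans_lt h1)))).continuousAt
  have c2 : ContinuousAt (pX (d.Q j) (d.r j)) q := (contDiffAt_pX (n := 0) (contDiffAt_zero.2
    ⟨_, ((isOpen_lt continuous_const continuous_fst).inter (isOpen_lt continuous_fst
      continuous_const)).mem_nhds ⟨h1, h2.trans_lt hb⟩,
      (continuousOn_const.mul (hs.smv j).continuousOn).sqrt⟩)).continuousAt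
  have ev : ∀ᶠ s in 𝓝[<] q.1, a < s ∧ s < b := by
    filter_upwards [Ioo_mem_nhdsLT h1] with s hs using ⟨hs.1, hs.2.trans_le h2⟩
  have t1 : Tendsto (fun s : ℝ => ((pX (e.Q j) (e.r j) (s, q.2), (0 : ℝ)) : ST)) (𝓝[<] q.1)
      (𝓝[S.M] (pX (e.Q j) (e.r j) q, 0)) :=
    tendsto_nhdsWithin_iff.2 ⟨(((ContinuousAt.comp (g := pX (e.Q j) (e.r j)) c1 c0).prodMk
      continuousAt_const).tendsto).mono_left nhdsWithin_le_nhds,
      ev.mono fun s hs => ends_mem e j (hR.trans_lt hs.1)⟩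
  have t2 := (hs.sm.continuousOn _ (ends_mem e j (hR.trans_lt h1))).tendsto.comp t1
  have t3 := (ContinuousAt.comp (g := pX (d.Q j) (d.r j)) c2 c0).tendsto.mono_left
    (nhdsWithin_le_nhds (s := Iio q.1))
  exact tendsto_nhds_unique (t2.congr' (ev.mono fun s h => hs.mt j (s, q.2) h.1 h.2)) t3

theorem YY_core (hS : S.Static) (hb : b ≤ X₀ - 2) {x : E} (hx : x ∈ S.sl 0)
    (hc : ((x, 0) : ST) ∈ Core e b) : x + YY d a X₀ x = d.X (x, 0) := by
  by_cases h : ∃ j, ((x, 0) : ST) ∈ tube e j a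
  · obtain ⟨j, hj⟩ := h
    have h1 := (pX_crd hS (p := (x, 0)) hx (tube_mono hR hj)).1
    have h2 : a < (crd (e.Q j) x).1 := by rw [crd_fst]; exact hj.1
    have h3 : (crd (e.Q j) x).1 ≤ b := by
      rw [crd_fst]; exact not_lt.1 fun k => hc j ⟨k, hj.2⟩
    have h4 := YY_en (j := j) hs hR h2 (h3.trans hb)
    rw [← mt_le hs hR (by linarith) h2 h3, h1] at h4
    exact h4
  · rw [YY, dif_neg h, add_sub_cancel]

theorem YY_ev (hS : S.Static) (hb : b ≤ X₀ - 2) (ho : ∀ j, p ∈ Off e j b) :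
    (fun q : ST => YY d a X₀ q.1) =ᶠ[𝓝[S.M] p] fun q => d.X q - q.1 := by
  filter_upwards [self_mem_nhdsWithin, nhdsWithin_le_nhds ((isOpen_allOff b).mem_nhds ho)]
    with q h1 h2
  rw [hs.st q.1 q.2, ← YY_core hs hR hS hb ((hS.mem q.1 q.2).1 h1) fun j hj =>
    (h2 j).elim (fun k => lt_asymm k hj.1) fun k => by linarith [hj.2], add_sub_cancel_left]

end

theorem dich (hS : S.Static) (hR : e.R ≤ a) (hab : a < b) (hp : p ∈ S.M) :
    (∃ j, p ∈ tube e j a) ∨ ∀ j, p ∈ Off e j b := by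
  by_cases h : ∃ j, p ∈ tube e j a
  · exact Or.inl h
  · exact Or.inr fun j => (tube_or_off' hS (hR.trans_lt hab) hab hp j).resolve_left fun k => h ⟨j, k⟩

/-- **real solutions define model surfaces** -/
theorem solS_of (hP : PairS) (hE : ElS) (hN : EnS) : SolS := by
  intro S e hS a b ha hab
  have hR : e.R ≤ a := by linarith
  have R3 := R_pos e
  obtain ⟨C, C0, hC⟩ := tube_jets hS e
  obtain ⟨K, K1, hK⟩ := j2le_cut
  obtain ⟨ε', e0, hI⟩ := img e hS (2 * e.R + a + 2)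
  obtain ⟨ρ₀, ρ0, hρ, hI⟩ := hI 1
  obtain ⟨μ, μ0, μ1, μ2⟩ : ∃ μ, 0 < μ ∧ μ ≤ 1 / 10 ∧ μ ≤ ε' :=
    ⟨min (1 / 10) ε', by positivity, min_le_left _ _, min_le_right _ _⟩
  refine ⟨μ / ((1 + C) * K), ρ₀, by positivity, ρ0, fun ε hε => ?_⟩
  obtain ⟨η, η0, η1, η2⟩ : ∃ η, 0 < η ∧ η ≤ 1 / 10 ∧ (84 / ρ₀ + 7) * η ≤ ε :=
    ⟨min (1 / 10) (ε / (84 / ρ₀ + 7)), by positivity, min_le_left _ _, by
      rw [← le_div_iff₀' (by positivity)]; exact min_le_right _ _⟩
  have i0 := inv_pos.2 hε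
  refine ⟨η / ((1 + C) * (2 * ε⁻¹ + 2)), 2 * ε⁻¹ + 2 * b + 10, by positivity,
    fun n f d X₀ ζ c A hc ht hL hs s0 s1 => ?_⟩
  set ε₀ := μ / ((1 + C) * K) with hε₀
  set ε₁ := η / ((1 + C) * (2 * ε⁻¹ + 2)) with hε₁
  have p0 : 0 < ε₀ := by positivity
  have p1 : 0 < ε₁ := by positivity
  have q0 : (1 + C) * (K * ε₀) = μ := by rw [hε₀]; field_simp
  have q1 : (1 + C) * ε₁ * (2 * ε⁻¹ + 2) = η := by rw [hε₁]; field_simp
  have q2 : ε₀ ≤ K * ε₀ := le_mul_of_one_le_left p0.le K1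
  have q3 : 0 ≤ C * (K * ε₀) := by positivity
  have q4 : K * ε₀ ≤ μ := by linarith
  have q5 : (1 + C) * ε₁ ≤ η := by nlinarith [mul_pos (show 0 < 1 + C by linarith) p1]
  have q6 : ε₁ ≤ 1 / 10 := by nlinarith [mul_pos C0 p1]
  have hb : b ≤ X₀ - 2 := by linarith
  set Y := YY d a X₀ with hY
  have T := fun j => hC j (d.R j) (vt d X₀ j) a Y hR (sm_vt hs hR j) (per_vt hs j)
    (fun q hq => by
      rw [vt, add_sub_cancel_left]
      exact abs_cut_le (fun q h1 h2 => (s0.en j q h1 h2).h0.trans (by linarith)) (by norm_num) hq)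
    fun q hq => YY_chart hs hR hq
  have sY : S.Sm fun p => Y p.1 := fun p hp => by
    rcases dich hS.st hR hab hp with ⟨j, hj⟩ | h
    · exact (contDiffWithinAt_inter ((isOpen_tube j a).mem_nhds hj)).1 ((T j).1 p ⟨hp, hj⟩)
    · exact ((hs.sm p hp).sub contDiffWithinAt_fst).congr_of_eventuallyEq_of_mem
        (YY_ev hs hR hS.st hb h) hp
  have bd : ∀ (L t t' : ℝ), d.Small a b L t → 0 ≤ t → t ≤ t' → t' ≤ 1 / 10 → ∀ x ∈ S.sl 0,
      (∀ j, ((x, 0) : ST) ∈ tube e j a →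
        J2le (fun y => vt d X₀ j y - vS e j y) t' (crd (e.Q j) x)) →
      ‖Y x‖ ≤ (1 + C) * t' * (1 + ‖x‖) ∧ (∀ i c, |S.D i (Yc Y c) (x, 0)| ≤ (1 + C) * t') ∧
        ∀ i k c, |S.D i (S.D k (Yc Y c)) (x, 0)| ≤ (1 + C) * t' := by
    intro L t t' s t0 t1 t2 x hx hJ
    have u0 : 0 ≤ t' := t0.trans t1
    have u1 : 0 ≤ C * t' := by positivity
    have u2 := norm_nonneg x
    rcases dich hS.st hR hab (p := (x, 0)) hx with ⟨j, hj⟩ | h
    · obtain ⟨T', n1, n2⟩ := (T j).2 t' t2 fun y => (s.rot j y).trans (by gcongr)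
      obtain ⟨b0, b1, b2⟩ := n2 (x, 0) hx hj (hJ j hj)
      refine ⟨?_, fun i c => (b1 i c).trans (by linarith), fun i k c => (b2 i k c).trans (by linarith)⟩
      have a1 : ‖T' x‖ ≤ t' * ‖x‖ := (T'.le_opNorm x).trans (by gcongr)
      have a2 : ‖Y x‖ ≤ ‖Y x - T' x‖ + ‖T' x‖ := by simpa using norm_add_le (Y x - T' x) (T' x)
      nlinarith [mul_nonneg u1 u2]
    · have hc : ((x, 0) : ST) ∈ Core e b := fun j hj =>
        (h j).elim (fun k => lt_asymm k hj.1) fun k => by linarith [hj.2]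
      have ev := YY_ev hs hR hS.st hb h
      have ec : ∀ c, Yc Y c =ᶠ[𝓝[S.M] (x, 0)] fun q => (d.X q - q.1) c := fun c =>
        ev.mono fun q hq => congrArg (fun v : E => v c) hq
      refine ⟨?_, fun i c => ?_, fun i k c => ?_⟩
      · have a1 : Y x = d.X (x, 0) - x := ev.eq_of_nhdsWithin hx
        have a2 := s.c0 (x, 0) hx hc
        rw [a1]
        exact a2.trans (mul_le_mul_of_nonneg_right (by linarith) (by positivity))
      · rw [D_congr hx (ec c)]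
        exact (s.c1 _ hx hc i c).trans (by linarith)
      · rw [D_congr hx (eventually_D_congr (ec c) k)]
        exact (s.c2 _ hx hc i k c).trans (by linarith)
  have J0 : ∀ j (x : E), ((x, 0) : ST) ∈ tube e j a →
      J2le (fun y => vt d X₀ j y - vS e j y) (K * ε₀) (crd (e.Q j) x) := fun j x hj => by
    have h1 : a < (crd (e.Q j) x).1 := by rw [crd_fst]; exact hj.1
    rw [vt_sub]
    exact hK X₀ a ε₀ _ _ p0.le (sm_g hs hR j) h1 (s0.en j _ h1)
  have b0 := fun x hx => bd X₀ ε₀ (K * ε₀) s0 p0.le q2 (by linarith) x hx fun j => J0 j x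
  simp only [q0] at b0
  have sz : ∀ x ∈ S.sl 0, ‖Y x‖ ≤ (1 + ‖x‖) / 10 := fun x hx => (b0 x hx).1.trans (by
    nlinarith [norm_nonneg x])
  have O := hI Y ⟨sY, fun x hx => (b0 x hx).1.trans (by gcongr),
    fun x hx i c => ((b0 x hx).2.1 i c).trans μ2,
    fun x hx i k c => ((b0 x hx).2.2 i k c).trans (by linarith), fun j => by
      obtain ⟨T', n1, n2⟩ := (T j).2 (K * ε₀) (by linarith) fun y => (s0.rot j y).trans (by gcongr)
      refine ⟨T', by linarith, fun x hx h1 h2 => ?_⟩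
      have h3 := (tube_of_cone e hx h1 (by linarith)).1
      rw [← xi_eq] at h3
      have h4 := (cone_tube hS.st (p := (x, 0)) hx h1 h3).1
      have h5 := norm_le_of_tube h4 (by linarith)
      have h6 : ((x, 0) : ST) ∈ tube e j a := ⟨by dsimp only at h5 ⊢; linarith, h4.2⟩
      exact (n2 (x, 0) hx h6 (J0 j x h6)).1.trans (by linarith)⟩
  have ctx : Ctx S e d f a b X₀ ζ c A Y (S.img (XY Y)) :=
    ⟨hS, ha, hab, by linarith, hc, ht, hs, ⟨sY, fun x hx h => YY_core hs hR hS.st hb hx h,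
      fun j q h1 h2 => YY_en hs hR h1 h2.le, fun j q h1 h2 => by
        have h3 := (abs_le.1 (s0.en j q h1 h2).h0).1
        have h4 := (e.near j q (hR.trans_lt h1)).1
        simp only [vS] at h3
        nlinarith, sz⟩, O.par⟩
  refine ⟨_, ⟨O.reg, O.st, fun p hp _ => O.closed.closure_subset hp, fun x hx _ => O.reach x hx,
    hP _ _ _ _ _ _ _ _ _ _ _ _ _ ctx, hE _ _ _ _ _ _ _ _ _ _ _ _ _ ctx,
    hN _ _ _ _ _ _ _ _ _ _ _ _ _ ctx⟩, O.near ρ0 le_rfl hρ sY η1 ?_ ?_ fun y hy hyR => ?_⟩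
  · have : 0 < 84 / ρ₀ * η := by positivity
    linarith
  · linarith
  · have h1 : ‖y‖ ≤ 2 * ε⁻¹ + 1 := by
      rcases hyR with h | h
      · linarith
      · linarith [sz y hy, norm_le_add_norm_add y (Y y)]
    obtain ⟨b1, b2, b3⟩ := bd _ ε₁ ε₁ s1 p1.le le_rfl q6 y hy fun j hj => by
      have h2 : (crd (e.Q j) y).1 ≤ ‖y‖ := by
        rw [crd_fst]; exact (le_abs_self _).trans (abs_xi_le j y)
      rw [vt_sub]
      exact j2le_congr (cut_ev (by linarith)) (s1.en j _ (by rw [crd_fst]; exact hj.1) (by linarith))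
    refine ⟨b1.trans ?_, fun i c => (b2 i c).trans q5, fun i k c => (b3 i k c).trans q5⟩
    rw [← q1]
    exact mul_le_mul_of_nonneg_left (by linarith) (by positivity)

theorem solS_holds : SolS := solS_of pairS_holds elS_holds enS_holds

end Crest.Agent.N250.Rl

end
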