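import Crest.Agent.N250.Rl.Jet
import Crest.Agent.N250.Fm.Defs
import Crest.Agent.N250.Wr.Sy3
import Crest.Agent.N250.Tr.Inst2

/-!
# Row 250 (helper14): jets of the displacement on a tube
-/

set_option autoImplicit false
open MeasureTheory Set Filter Topology
open scoped ContDiff InnerProductSpace
open Crest.GeometryTopology.MCF

noncomputable section

namespace Crest.Agent.N250.Rl

open Mv Po Wr Fm

variable {S : Mv} {e : Ends S} {j : Fin e.p} {p : ST}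

theorem ss_eq (j : Fin e.p) (p : ST) : ss (e.Q j) p = r2 e j p.1 := by
  rw [r2, xi_eq, ← (e.Q j).symm.norm_map p.1, EuclideanSpace.real_norm_sq_eq, Fin.sum_univ_three]
  simp only [ss, yc, yy_apply, Pi.add_apply, Pi.mul_apply]
  ring

theorem crd_fst (j : Fin e.p) (x : E) : (crd (e.Q j) x).1 = xi e j x := (xi_eq j x).symm

theorem per_r (j : Fin e.p) : Per (e.r j) := e.per j

theorem per_vS (j : Fin e.p) : Per (vS e j) := fun s θ => by simp only [vS, e.per j s θ]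

theorem sm_vS (j : Fin e.p) : ContDiffOn ℝ ∞ (vS e j) {q | e.R < q.1} := ((e.sm j).pow 2).div_const 2

/-- points of the tube in the chart -/
theorem pX_crd (hS : S.Static) (hp : p ∈ S.M) (ht : p ∈ tube e j e.R) :
    pX (e.Q j) (e.r j) (crd (e.Q j) p.1) = p.1 ∧ e.r j (crd (e.Q j) p.1) ^ 2 = ss (e.Q j) p := by
  obtain ⟨θ, h⟩ := exists_pol hS hp (tube_cone ht) ht.1
  have h1 := (e.near j (xi e j p.1, θ) ht.1).1
  have h2 : e.r j (crd (e.Q j) p.1) = e.r j (xi e j p.1, θ) := by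
    conv_lhs => rw [h]
    exact (per_r j).crd_cyl _ (by linarith) θ
  have h3 : ‖zc (e.Q j) p.1‖ = e.r j (xi e j p.1, θ) := by
    conv_lhs => rw [h]
    rw [norm_zc_cyl, abs_of_pos (by linarith)]
  refine ⟨by rw [pX, h2, ← h3, cyl_crd], ?_⟩
  rw [h2, ← h3, Complex.sq_norm]
  rfl

/-- the radial part as a linear map -/
def wL (e : Ends S) (j : Fin e.p) : E →L[ℝ] E :=
  ContinuousLinearMap.id ℝ E - (innerSL ℝ (ax e j)).smulRight (ax e j)

theorem wL_apply (x : E) : wL e j x = wv e j x := rfl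

theorem norm_wv_le (x : E) : ‖wv e j x‖ ≤ ‖x‖ := by
  refine abs_le_of_sq_le_sq' ?_ (norm_nonneg _) |>.2
  rw [← r2_eq_wv, r2]
  nlinarith [sq_nonneg (xi e j x)]

theorem pX_add (q : ℝ × ℝ) (r : ℝ × ℝ → ℝ) (h : ℝ) :
    (e.Q j).symm (pX (e.Q j) r q + h • wv e j (pX (e.Q j) r q)) = cylP q.1 ((1 + h) * r q) q.2 := by
  rw [wv, pX, xi_Q, ax, ← map_smul, ← map_sub, ← map_smul, ← map_add,
    LinearIsometryEquiv.symm_apply_apply]
  ext i
  fin_cases i <;> simp [cylP] <;> ring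

/-- **jets of the displacement on a tube** -/
theorem tube_jets (hS : S.IsShr) (e : Ends S) : ∃ C, 0 < C ∧ ∀ (j : Fin e.p) (R : E ≃ₗᵢ[ℝ] E)
    (v : ℝ × ℝ → ℝ) (a : ℝ) (Y : E → E), e.R ≤ a → ContDiffOn ℝ ∞ v {q | a < q.1} → Per v →
    (∀ q : ℝ × ℝ, a < q.1 → |v q - vS e j q| ≤ 1 / 10) →
    (∀ q : ℝ × ℝ, a < q.1 → pX (e.Q j) (e.r j) q + Y (pX (e.Q j) (e.r j) q) =
      pX (R.trans (e.Q j)) (fun q => √(2 * v q)) q) →
    ContDiffOn ℝ ∞ (fun p : ST => Y p.1) (S.M ∩ tube e j a) ∧ ∀ ε, ε ≤ 1 / 10 →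
      (∀ y, ‖R y - y‖ ≤ ε * ‖y‖) → ∃ T : E →L[ℝ] E, ‖T‖ ≤ ε ∧ ∀ p ∈ S.M, p ∈ tube e j a →
        J2le (fun y => v y - vS e j y) ε (crd (e.Q j) p.1) → ‖Y p.1 - T p.1‖ ≤ C * ε ∧
        (∀ i c, |S.D i (Yc Y c) p| ≤ C * ε) ∧ ∀ i k c, |S.D i (S.D k (Yc Y c)) p| ≤ C * ε := by
  obtain ⟨C₁, hC⟩ := e.jets₀ 1
  obtain ⟨B, B1, B2, hB⟩ := frame_bd C₁
  obtain ⟨K, hK⟩ : ∃ K, K = 2 * (4 * (8 * B ^ 2 * B)) := ⟨_, rfl⟩
  have K0 : 0 < K := by rw [hK]; positivity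
  refine ⟨B + 4 * (2 * ((1 + 2 * K) * K) * B), by positivity, fun j R v a Y ha hv hp hs hY => ?_⟩
  have hΩ := isOpen_tube (e := e) j a
  set F := S.res (tube e j a) with hFd
  have hF : F.Reg := Tr.res_reg hΩ hS.reg
  have hU : IsOpen {q : ℝ × ℝ | a < q.1} := isOpen_lt continuous_const continuous_fst
  have s1 : ∀ q ∈ F.M, 1 ≤ ss (e.Q j) q := fun q hq => by
    have := one_lt_wv hS.st hq.1 (tube_mono ha hq.2)
    rw [ss_eq, r2_eq_wv]
    nlinarith
  have hm : ∀ q ∈ F.M, crd (e.Q j) q.1 ∈ {q : ℝ × ℝ | a < q.1} := fun q hq => by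
    change a < _
    rw [crd_fst]
    exact hq.2.1
  set g : ℝ × ℝ → ℝ := fun y => v y - vS e j y with hg
  have pg : Per g := fun s θ => by simp only [hg, hp s θ, per_vS j s θ]
  have cg : ContDiffOn ℝ ∞ g {q | a < q.1} :=
    hv.sub ((sm_vS j).mono fun q hq => ha.trans_lt hq)
  have sw := sm_lf s1 hU hm pg cg
  have si := sm_si s1
  set u : ST → ℝ := fun q => 2 * (lf (e.Q j) g * fun q => (ss (e.Q j) q)⁻¹ : ST → ℝ) q with hu
  have su : F.Sm u := (sm_const 2).mul (sw.mul si)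
  have bu : ∀ q ∈ F.M, |u q| ≤ 1 / 2 := fun q hq => by
    have h1 := s1 q hq
    have h2 : |(ss (e.Q j) q)⁻¹| ≤ 1 := by
      rw [abs_of_pos (by positivity)]; exact inv_le_one_of_one_le₀ h1
    have h3 := abs_mul_le (hs _ (hm q hq)) h2
    rw [hu]
    simp only [Pi.mul_apply, abs_mul, abs_two] at h3 ⊢
    simp only [lf, hg]
    linarith
  set h : ST → ℝ := fun q => √(1 + u q) - 1 with hh
  obtain ⟨M, hMa⟩ : ∃ M : E →L[ℝ] E, ∀ x, M x = e.Q j (R ((e.Q j).symm x)) :=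
    ⟨(((e.Q j).symm.trans R).trans (e.Q j)).toContinuousLinearEquiv.toContinuousLinearMap,
      fun _ => rfl⟩
  have nM : ∀ x, ‖M x‖ = ‖x‖ := fun x => by simp [hMa]
  have key : ∀ q ∈ F.M, Y q.1 = (M - ContinuousLinearMap.id ℝ E) q.1 + h q • M (wL e j q.1) := by
    intro q hq
    obtain ⟨h1, h2⟩ := pX_crd hS.st hq.1 (tube_mono ha hq.2)
    have h3 := hY _ (hm q hq)
    have h4 := pX_add (j := j) (crd (e.Q j) q.1) (e.r j) (h q)
    rw [h1] at h3 h4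
    have h5 := (e.near j _ (ha.trans_lt (hm q hq))).1
    have h6 : (1 + h q) * e.r j (crd (e.Q j) q.1) = √(2 * v (crd (e.Q j) q.1)) := by
      have h7 := s1 q hq
      rw [hh]
      simp only [add_sub_cancel]
      rw [← Real.sqrt_sq (show 0 ≤ e.r j (crd (e.Q j) q.1) by linarith), ← Real.sqrt_mul' _ (sq_nonneg _)]
      congr 1
      simp only [hu, Pi.mul_apply, lf, hg, vS, h2]
      field_simp
      ring
    have h7 : M (q.1 + h q • wv e j q.1) = q.1 + Y q.1 := by rw [hMa, h4, h3, h6]; rfl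
    rw [map_add, map_smul] at h7
    rw [ContinuousLinearMap.sub_apply, wL_apply, ContinuousLinearMap.id_apply, sub_add_eq_add_sub, h7]
    abel
  have h0 : ∀ q ∈ F.M, 1 + u q ≠ 0 := fun q hq => by linarith [(abs_le.1 (bu q hq)).1]
  have sh : F.Sm h := (ContDiffOn.sqrt (contDiffOn_const.add su) h0).sub contDiffOn_const
  refine ⟨ContDiffOn.congr (((M - ContinuousLinearMap.id ℝ E).contDiff.comp contDiff_fst).contDiffOn.add
    (ContDiffOn.smul sh ((M.comp (wL e j)).contDiff.comp contDiff_fst).contDiffOn)) key,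
    fun ε ε1 hR => ?_⟩
  have ε0 : 0 ≤ ε := by simpa [Im.norm_ee] using (norm_nonneg _).trans (hR (ee 0))
  have bT : ∀ x, ‖(M - ContinuousLinearMap.id ℝ E) x‖ ≤ ε * ‖x‖ := fun x => by
    have := hR ((e.Q j).symm x)
    rw [← (e.Q j).norm_map, map_sub, LinearIsometryEquiv.apply_symm_apply,
      LinearIsometryEquiv.norm_map, ← hMa] at this
    exact this
  refine ⟨_, ContinuousLinearMap.opNorm_le_bound _ ε0 bT, fun p hpM hpt J => ?_⟩
  have hpF : p ∈ F.M := ⟨hpM, hpt⟩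
  have hA : ∀ a b, |F.A a b p| ≤ C₁ := fun a b => by
    rw [hFd, Tr.res_A hΩ hpt]
    exact njet_st hS.st (hC p.1 ((hS.st.mem p.1 p.2).1 hpM)) b [a] rfl
  have hA' : ∀ a b, |F.A a b p| ≤ |C₁| := fun a b => (hA a b).trans (le_abs_self _)
  obtain ⟨f1, f2, f3⟩ := hB F (e.Q j) p hF s1 hpF (by rw [ss_eq]; exact hpt.2.le) hA
  have jw := j2_lf hF s1 hU hm pg cg hpF B1 f1 f3 J.h0 J.h1 J.h2 J.h11 J.h12 J.h22
  have jm := jw.mul hF hpF sw si f2
  have ju : J2 F u (K * ε) p := J2.mono ⟨abs_mul_le (le_of_eq abs_two) jm.h0,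
    jm.h1.cmul hF hpF (sw.mul si) (le_of_eq abs_two)⟩ (le_of_eq (by rw [hK]; ring))
  have jh : J2 F h (2 * ((1 + 2 * K) * K) * ε) p := (j2_sqrt hF hpF su bu ju).2.mono (by
    have : K * ε ≤ K := mul_le_of_le_one_right K0.le (by linarith)
    have : (1 + 2 * (K * ε)) * (K * ε) ≤ (1 + 2 * K) * (K * ε) := by gcongr
    linarith)
  have w2 := wv_lt_two hpt
  have k1 : 0 ≤ 2 * ((1 + 2 * K) * K) * ε := by positivity
  have jY : ∀ c, J1 F (Yc Y c) ((B + 4 * (2 * ((1 + 2 * K) * K) * B)) * ε) p := fun c => by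
    set l1 := (EuclideanSpace.proj (𝕜 := ℝ) c).comp (M - ContinuousLinearMap.id ℝ E)
    set l2 := (EuclideanSpace.proj (𝕜 := ℝ) c).comp (M.comp (wL e j))
    have b2 : ∀ x, |l2 x| ≤ ‖wv e j x‖ := fun x => (Im.abs_coord_le _ c).trans (nM _).le
    have j1 := j1_lin hF hpF hA' l1 (β := ε) fun d =>
      (Im.abs_coord_le _ c).trans ((bT _).trans (by rw [Im.norm_ee, mul_one]))
    have j2 : J2 F (fun q => l2 q.1) B p := ⟨(b2 _).trans (by linarith [abs_nonneg C₁]),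
      (j1_lin hF hpF hA' l2 (β := 1) fun d =>
        (b2 _).trans ((norm_wv_le _).trans (Im.norm_ee d).le)).mono (by linarith)⟩
    refine ((j1.add hF hpF (sm_lin F l1) (sh.mul (sm_lin F l2))
      (jh.mul hF hpF sh (sm_lin F l2) j2).h1).congr hpF fun q hq => ?_).mono ?_
    · rw [Yc, key q hq]; rfl
    · have : ε * (6 + 6 * |C₁|) ≤ ε * B := by gcongr
      linarith
  refine ⟨?_, fun i c => ?_, fun i k c => ?_⟩
  · rw [key p hpF, add_sub_cancel_left, norm_smul, nM, wL_apply, Real.norm_eq_abs]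
    have : |h p| * ‖wv e j p.1‖ ≤ 2 * ((1 + 2 * K) * K) * ε * (4 * B) :=
      mul_le_mul jh.h0 (by linarith) (norm_nonneg _) k1
    nlinarith [mul_nonneg ε0 (zero_le_one.trans B1)]
  · rw [← Tr.res_D hΩ _ hpt]
    exact (jY c i).h0
  · have := Tr.res_DL hΩ (Yc Y c) [i, k] p hpF
    change F.D i (F.D k (Yc Y c)) p = S.D i (S.D k (Yc Y c)) p at this
    rw [← this]
    exact (jY c k).h1 i

end Crest.Agent.N250.Rl

end
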